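-- RD-BASE 4f42a91fa2ff0c287f4875348dadf7904089a329
import Vale.Agent.P028.MathlibUsed
import Vale.Agent.P028.RD.H758.Tree
attribute [-instance] ProperSMul.toContinuousSMul IsTopologicalTorsor.toContinuousSMul IdemSemiring.toCanonicallyOrderedAdd IdemSemiring.toMulLeftMono IdemSemiring.toMulRightMono AddQuantale.instAddLeftMono AddQuantale.instAddRightMono Quantale.instMulLeftMono Quantale.instMulRightMono FiniteDimensional.rclike_to_real IsScalarTower.complexToReal FiniteDimensional.complexToReal

/-!
# The tree lemma with arbitrary weights at the nodes and arbitrary fibres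
-/

namespace Vale.P028.SK

open Finset CF

variable {ι : Type*}

/-- equal labels at all the primes `p' > p` -/
def SAb (e : ι → ℕ → ℕ) (p : ℕ) (r r' : ι) : Prop := ∀ p' : ℕ, p'.Prime → p < p' → e r p' = e r' p'

/-- **The tree lemma, general weights.** The labels `e r p` are chosen from the large primes to the
small ones; `w p r` is the weight of the label at `p`, and `1 + x p r` (a function of the labels
above `p`) pays for the sum over the labels at `p`; `ω` is an extra weight whose sum over the
elements with the same labels is at most `K0`. -/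
theorem treeG (e : ι → ℕ → ℕ) (w x : ℕ → ι → ℝ) (ω : ι → ℝ) {K0 : ℝ} (hK0 : 0 ≤ K0)
    (hω : ∀ r, 0 ≤ ω r) (hw0 : ∀ p r, 0 ≤ w p r) (hx0 : ∀ p r, 0 ≤ x p r) (n : ℕ) :
    ∀ S : Finset ι, (∀ r ∈ S, ∀ r' ∈ S, SAb e n r r') →
    (∀ T ⊆ S, (∀ r ∈ T, ∀ r' ∈ T, ∀ p : ℕ, p.Prime → e r p = e r' p) → ∑ r ∈ T, ω r ≤ K0) →
    (∀ r ∈ S, ∀ r' ∈ S, ∀ p : ℕ, p.Prime → SAb e p r r' → x p r = x p r') →
    (∀ r0 ∈ S, ∀ p : ℕ, p.Prime → ∀ T ⊆ S, (∀ r ∈ T, SAb e p r0 r) →
      (∀ r ∈ T, ∀ r' ∈ T, e r p = e r' p → r = r') → ∑ r ∈ T, w p r ≤ 1 + x p r0) →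
    ∑ r ∈ S, ω r * ∏ p ∈ prN n, (w p r / (1 + x p r)) ≤ K0 := by
  classical
  induction n with
  | zero =>
    intro S hsame hfib _ _
    have h2 : prN 0 = ∅ := rfl
    rw [h2]
    simp only [prod_empty, mul_one]
    exact hfib S subset_rfl fun r hr r' hr' p hp => hsame r hr r' hr' p hp hp.pos
  | succ n ih =>
    intro S hsame hfib H1 HW
    by_cases hn : (n + 1).Prime
    · set P : ℕ := n + 1 with hP
      set Ex : Finset ℕ := S.image (fun r => e r P) with hEx
      have hmaps : ∀ r ∈ S, e r P ∈ Ex := fun r hr => mem_image_of_mem _ hr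
      rw [← sum_fiberwise_of_maps_to hmaps]
      rcases S.eq_empty_or_nonempty with hS0 | ⟨r0, hr0⟩
      · have : Ex = ∅ := by rw [hEx, hS0, image_empty]
        rw [this, sum_empty]
        exact hK0
      set X : ℝ := x P r0 with hX
      have hXc : ∀ r ∈ S, x P r = X := fun r hr => H1 r hr r0 hr0 P hn (hsame r hr r0 hr0)
      have hX0 : 0 ≤ X := hx0 _ _
      -- the representatives with the largest weight
      have hrep : ∀ k : ℕ, ∃ r : ι, k ∈ Ex → r ∈ S ∧ e r P = k ∧
          ∀ r' ∈ S, e r' P = k → w P r' ≤ w P r := by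
        intro k
        by_cases hk : k ∈ Ex
        · obtain ⟨r1, hr1, hr1'⟩ := mem_image.1 hk
          obtain ⟨r2, hr2, hmax⟩ := exists_max_image (S.filter (fun r => e r P = k)) (w P)
            ⟨r1, mem_filter.2 ⟨hr1, hr1'⟩⟩
          obtain ⟨h1, h2⟩ := mem_filter.1 hr2
          exact ⟨r2, fun _ => ⟨h1, h2, fun r' hr' hk' => hmax r' (mem_filter.2 ⟨hr', hk'⟩)⟩⟩
        · exact ⟨r0, fun h => absurd h hk⟩
      choose rp hrp using hrep
      have hinner : ∀ k ∈ Ex, ∑ r ∈ S.filter (fun r => e r P = k),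
          ω r * ∏ p ∈ prN (n + 1), (w p r / (1 + x p r)) ≤ w P (rp k) / (1 + X) * K0 := by
        intro k hk
        obtain ⟨-, -, hmax⟩ := hrp k hk
        have h1 : ∀ r ∈ S.filter (fun r => e r P = k),
            ω r * ∏ p ∈ prN (n + 1), (w p r / (1 + x p r)) ≤ w P (rp k) / (1 + X) *
            (ω r * ∏ p ∈ prN n, (w p r / (1 + x p r))) := by
          intro r hr
          obtain ⟨hr1, hr2⟩ := mem_filter.1 hr
          have hnm : n + 1 ∉ prN n := by
            intro hmem
            have := (mem_Icc.1 (mem_filter.1 hmem).1).2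
            omega
          rw [prN_succ_prime hn, prod_insert hnm]
          change ω r * (w P r / (1 + x P r) * _) ≤ _
          rw [hXc r hr1]
          have h3 : 0 ≤ ω r * ∏ p ∈ prN n, (w p r / (1 + x p r)) :=
            mul_nonneg (hω r) (prod_nonneg fun p _ =>
              div_nonneg (hw0 _ _) (by linarith [hx0 p r]))
          have h4 : w P r / (1 + X) ≤ w P (rp k) / (1 + X) :=
            div_le_div_of_nonneg_right (hmax r hr1 hr2) (by linarith)
          calc ω r * (w P r / (1 + X) * ∏ p ∈ prN n, (w p r / (1 + x p r))) =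
                w P r / (1 + X) * (ω r * ∏ p ∈ prN n, (w p r / (1 + x p r))) := by ring
            _ ≤ _ := mul_le_mul_of_nonneg_right h4 h3
        refine (sum_le_sum h1).trans ?_
        rw [← mul_sum]
        refine mul_le_mul_of_nonneg_left (ih _ ?_ ?_ ?_ ?_)
          (div_nonneg (hw0 _ _) (by linarith))
        · intro r hr r' hr' p' hp' hlt
          obtain ⟨a1, a2⟩ := mem_filter.1 hr
          obtain ⟨b1, b2⟩ := mem_filter.1 hr'
          rcases Nat.eq_or_lt_of_le (show n + 1 ≤ p' from hlt) with h3 | h3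
          · rw [← h3]
            exact a2.trans b2.symm
          · exact hsame r a1 r' b1 p' hp' h3
        · exact fun T hT hsT => hfib T (hT.trans (filter_subset _ _)) hsT
        · exact fun r hr r' hr' => H1 r (mem_filter.1 hr).1 r' (mem_filter.1 hr').1
        · exact fun r1 hr1 p hp T hT => HW r1 (mem_filter.1 hr1).1 p hp T
            (hT.trans (filter_subset _ _))
      refine (sum_le_sum hinner).trans ?_
      rw [← sum_mul, ← sum_div]
      have hinj : Set.InjOn rp Ex := by
        intro k hk k' hk' h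
        rw [← (hrp k hk).2.1, ← (hrp k' hk').2.1, h]
      have hT := HW r0 hr0 P hn (Ex.image rp) (by
          intro r hr
          obtain ⟨k, hk, rfl⟩ := mem_image.1 hr
          exact (hrp k hk).1) (by
          intro r hr
          obtain ⟨k, hk, rfl⟩ := mem_image.1 hr
          exact hsame r0 hr0 _ (hrp k hk).1) (by
          intro r hr r' hr' h
          obtain ⟨k, hk, rfl⟩ := mem_image.1 hr
          obtain ⟨k', hk', rfl⟩ := mem_image.1 hr'
          rw [(hrp k hk).2.1, (hrp k' hk').2.1] at h
          rw [h])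
      rw [sum_image hinj] at hT
      calc (∑ k ∈ Ex, w P (rp k)) / (1 + X) * K0 ≤ 1 * K0 := by
            refine mul_le_mul_of_nonneg_right ?_ hK0
            rw [div_le_one (by linarith)]
            exact hT
        _ = K0 := one_mul _
    · rw [prN_succ_not_prime hn]
      refine ih S ?_ hfib H1 HW
      intro r hr r' hr' p' hp' hlt
      rcases Nat.eq_or_lt_of_le (show n + 1 ≤ p' from hlt) with h3 | h3
      · rw [← h3] at hp'
        exact absurd hp' hn
      · exact hsame r hr r' hr' p' hp' h3

end Vale.P028.SK
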