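-- RD-BASE eedbe86263e8bdb3016aac68553f3d943dcaf377
import Vale.Agent.P028.MathlibUsed
import Vale.Agent.P028.RD.H279.TreeG
import Vale.Agent.P028.RD.H758.XTree
import Vale.Agent.P028.RD.H530.Unsplit
attribute [-instance] ProperSMul.toContinuousSMul IsTopologicalTorsor.toContinuousSMul IdemSemiring.toCanonicallyOrderedAdd IdemSemiring.toMulLeftMono IdemSemiring.toMulRightMono AddQuantale.instAddLeftMono AddQuantale.instAddRightMono Quantale.instMulLeftMono Quantale.instMulRightMono FiniteDimensional.rclike_to_real IsScalarTower.complexToReal FiniteDimensional.complexToReal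

/-!
# The tree over the rest patterns, with adders and removers

`β` = base exponents, `r` = varying element with adders `U r` and removers `Vm r`.
-/

namespace Vale.P028.SK

open Finset CF RN

/-- the hypotheses on one element of the tree: base exponents `β`, a set `D0` of deviating primes of
the base, the possible adders `Om`, the denominators `B`, the threshold `t`, the adders `U r` and
the removers `Vm r` -/
structure XR (g : Cfg) (β : ℕ → ℕ) (D0 Om : Finset ℕ) (B t : ℕ) (U Vm : ℕ → Finset ℕ)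
    (r : ℕ) : Prop where
  mr : r ∈ g.V
  wr : WW w3 g r ≤ 1 / 4
  hU : ∀ p ∈ U r, r.factorization p < β p ∧ p ∈ Om
  hVp : ∀ p ∈ Vm r, p.Prime ∧ t < p ∧ p ≤ N g
  hVm : ∀ p ∈ Vm r, β p < r.factorization p ∧ ¬ Spl g r p
  ha : ∀ p : ℕ, p.Prime → t < p → p ≤ N g → ¬ p ∣ B → p ∉ U r → r.factorization p < β p →
    p ∈ D0 ∨ β p < kc g r p
  hb : ∀ p : ℕ, p.Prime → t < p → p ≤ N g → ¬ p ∣ B → p ∉ Vm r → β p < r.factorization p →
    r.factorization p < kc g r p

open Classical in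
/-- the label of the image at `p` (the removers are emptied, the primes `≤ t0` are ignored) -/
noncomputable def eX (β : ℕ → ℕ) (t0 : ℕ) (Vm : ℕ → Finset ℕ) (r p : ℕ) : ℕ :=
  if p ≤ t0 then 0 else if p ∈ Vm r then β p else r.factorization p

open Classical in
/-- the weight of the label at `p` -/
noncomputable def wX (β : ℕ → ℕ) (h : ℕ → ℝ) (s : ℝ) (t0 : ℕ) (U Vm : ℕ → Finset ℕ)
    (p r : ℕ) : ℝ :=
  if p ≤ t0 then 1 else
    if p ∈ U r then h p * ((p : ℝ) ^ (-(1 - s))) ^ (β p - r.factorization p) else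
      if p ∈ Vm r then 1 else ((p : ℝ) ^ (-(5 / 12) : ℝ)) ^ ad (β p) (r.factorization p)

/-- off-centre place -/
def OffX (g : Cfg) (β : ℕ → ℕ) (p r : ℕ) : Prop :=
  ¬ Spl g r p ∧ β p < NT.dom (f g) (NT.cell g.V (f g) (thr g) (N g) p r) p

/-- node of the rest -/
def RNX (g : Cfg) (β : ℕ → ℕ) (D0 : Finset ℕ) (B t : ℕ) (p r : ℕ) : Prop :=
  p ≤ N g ∧ (p ≤ t ∨ p ∣ B ∨ p ∈ D0 ∨ OffX g β p r)

open Classical in
/-- the weights which pay for the nodes -/
noncomputable def xX (g : Cfg) (β : ℕ → ℕ) (D0 Om : Finset ℕ) (B t : ℕ) (h : ℕ → ℝ) (s : ℝ)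
    (t0 : ℕ) (p r : ℕ) : ℝ :=
  if p ≤ t0 then 0 else
    (if RNX g β D0 B t p r then 8 * (p : ℝ) ^ (-(5 / 12) : ℝ) else 0) +
      (if p ∈ Om then 4 * (h p * (p : ℝ) ^ (-(1 - s))) else 0)

variable {g : Cfg} {β : ℕ → ℕ} {D0 Om : Finset ℕ} {B t t0 : ℕ} {U Vm : ℕ → Finset ℕ} {h : ℕ → ℝ}
  {s : ℝ}

theorem XR.kc_unsplit {r p : ℕ} (hpN : p ≤ N g) (hs : ¬ Spl g r p) :
    kc g r p = NT.dom (f g) (NT.cell g.V (f g) (thr g) (N g) p r) p := by
  unfold kc NT.kN
  rw [if_pos hpN]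
  exact NT.kk_of_not_split hs

theorem XR.kc_split {r p : ℕ} (hpN : p ≤ N g) (hs : Spl g r p) :
    kc g r p = r.factorization p := by
  unfold kc NT.kN
  rw [if_pos hpN]
  exact NT.kk_of_split hs

/-- elements with the same image labels above `p` are in one cell -/
theorem XR.cell {r r' p : ℕ} (hr : XR g β D0 Om B t U Vm r) (hr' : XR g β D0 Om B t U Vm r')
    (hp : t0 ≤ p) (hs : SAb (eX β t0 Vm) p r r') :
    NT.cell g.V (f g) (thr g) (N g) p r' = NT.cell g.V (f g) (thr g) (N g) p r := by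
  apply NT.cell_eq
  by_contra hcon
  obtain ⟨p', hpp, hlt, hpN, h1, h2, h3⟩ := NT.exists_sep hr'.mr hcon
  have h4 := hs p' hpp hlt
  have h5 : ¬ p' ≤ t0 := by omega
  have n1 : p' ∉ Vm r := fun hm => (hr.hVm p' hm).2 h2
  have n2 : p' ∉ Vm r' := by
    intro hm
    apply (hr'.hVm p' hm).2
    unfold Spl
    rw [NT.cell_eq h1]
    exact h2
  unfold eX at h4
  rw [if_neg h5, if_neg h5, if_neg n1, if_neg n2] at h4
  exact h3 h4.symm

theorem OffX_congr {r r' p : ℕ} (hc : NT.cell g.V (f g) (thr g) (N g) p r' =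
    NT.cell g.V (f g) (thr g) (N g) p r) : OffX g β p r ↔ OffX g β p r' := by
  unfold OffX Spl
  rw [hc]

theorem xX_congr {r r' p : ℕ} (hr : XR g β D0 Om B t U Vm r) (hr' : XR g β D0 Om B t U Vm r')
    (hs : SAb (eX β t0 Vm) p r r') :
    xX g β D0 Om B t h s t0 p r = xX g β D0 Om B t h s t0 p r' := by
  classical
  unfold xX
  by_cases hp : p ≤ t0
  · rw [if_pos hp, if_pos hp]
  · rw [if_neg hp, if_neg hp]
    have h1 := hr.cell hr' (not_le.1 hp).le hs
    have h2 : RNX g β D0 B t p r ↔ RNX g β D0 B t p r' := by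
      unfold RNX
      rw [OffX_congr h1]
    rw [if_congr h2 rfl rfl]

theorem wX_nonneg (hh : ∀ p, 0 ≤ h p) (p r : ℕ) : 0 ≤ wX β h s t0 U Vm p r := by
  unfold wX
  split_ifs
  · exact zero_le_one
  · exact mul_nonneg (hh p) (by positivity)
  · exact zero_le_one
  · positivity

theorem xX_nonneg (hh : ∀ p, 0 ≤ h p) (p r : ℕ) : 0 ≤ xX g β D0 Om B t h s t0 p r := by
  unfold xX
  have := hh p
  split_ifs <;> positivity

/-- the label at an unpaid node -/
theorem XR.rest_zero {r p : ℕ} (hV : g.V ⊆ Icc 1 (N g)) (hβ : ∀ p, N g < p → β p = 0)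
    (hr : XR g β D0 Om B t U Vm r) (hp : p.Prime) (hU : p ∉ U r) (hVm : p ∉ Vm r)
    (hno : ¬ RNX g β D0 B t p r) : r.factorization p = β p := by
  have hr1 := mem_Icc.1 (hV hr.mr)
  by_cases hpN : p ≤ N g
  swap
  · rw [hβ p (not_le.1 hpN), Nat.factorization_eq_zero_of_lt (by omega)]
  have hno' : ¬ (p ≤ t ∨ p ∣ B ∨ p ∈ D0 ∨ OffX g β p r) := fun h' => hno ⟨hpN, h'⟩
  push Not at hno'
  obtain ⟨n1, n2, n3, n4⟩ := hno'
  rcases lt_trichotomy (r.factorization p) (β p) with h1 | h1 | h1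
  · exfalso
    rcases hr.ha p hp n1 hpN n2 hU h1 with h2 | h2
    · exact n3 h2
    · by_cases hs : Spl g r p
      · rw [XR.kc_split hpN hs] at h2
        omega
      · rw [XR.kc_unsplit hpN hs] at h2
        exact n4 ⟨hs, h2⟩
  · exact h1
  · exfalso
    have h2 := hr.hb p hp n1 hpN n2 hVm h1
    by_cases hs : Spl g r p
    · rw [XR.kc_split hpN hs] at h2
      omega
    · rw [XR.kc_unsplit hpN hs] at h2
      exact n4 ⟨hs, by omega⟩

/-- sum over the exponents below `b0` -/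
theorem sum_below {c : ℝ} (hc : 0 ≤ c) (hc1 : c < 1) (b0 : ℕ) (E : Finset ℕ) :
    ∑ e ∈ E, (if e < b0 then c ^ (b0 - e) else 0) ≤ c / (1 - c) := by
  classical
  rw [← sum_filter]
  have h1 : ∑ e ∈ E.filter (fun e => e < b0), c ^ (b0 - e) =
      ∑ k ∈ (E.filter (fun e => e < b0)).image (fun e => b0 - e), c ^ k := by
    rw [sum_image]
    intro a ha b hb hab
    have h2 := (mem_filter.1 ha).2
    have h3 := (mem_filter.1 hb).2
    simp only at hab
    omega
  rw [h1]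
  have h2 : (E.filter (fun e => e < b0)).image (fun e => b0 - e) ⊆ (range (b0 + 1)).erase 0 := by
    intro k hk
    obtain ⟨e, he, rfl⟩ := mem_image.1 hk
    have := (mem_filter.1 he).2
    rw [mem_erase, mem_range]
    omega
  refine (sum_le_sum_of_subset_of_nonneg h2 fun _ _ _ => by positivity).trans ?_
  have h3 : ∑ k ∈ (range (b0 + 1)).erase 0, c ^ k = ∑ k ∈ range b0, c ^ (k + 1) := by
    rw [sum_erase_eq_sub (mem_range.2 (Nat.succ_pos _)), sum_range_succ']
    simp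
  rw [h3]
  have h4 : ∑ k ∈ range b0, c ^ (k + 1) = c * ∑ k ∈ range b0, c ^ k := by
    rw [mul_sum]
    exact sum_congr rfl fun k _ => by ring
  rw [h4, geom_sum_eq hc1.ne]
  have h5 : 0 < 1 - c := by linarith
  have h6 : (c ^ b0 - 1) / (c - 1) = (1 - c ^ b0) / (1 - c) := by
    rw [← neg_div_neg_eq]
    ring
  rw [h6, mul_div_assoc']
  refine div_le_div_of_nonneg_right ?_ h5.le
  have : 0 ≤ c ^ b0 := by positivity
  nlinarith

theorem pow512_bounds {p : ℕ} (hp : p.Prime) : 0 < (p : ℝ) ^ (-(5 / 12) : ℝ) ∧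
    (p : ℝ) ^ (-(5 / 12) : ℝ) ≤ 3 / 4 := by
  have h2 : (2 : ℝ) ≤ p := by exact_mod_cast hp.two_le
  have h0 : (0 : ℝ) < p := by linarith
  refine ⟨Real.rpow_pos_of_pos h0 _, ?_⟩
  have h3 : (4 / 3 : ℝ) ≤ (p : ℝ) ^ (5 / 12 : ℝ) := by
    have h4 : (4 / 3 : ℝ) = ((4 / 3 : ℝ) ^ (12 / 5 : ℝ)) ^ (5 / 12 : ℝ) := by
      rw [← Real.rpow_mul (by norm_num)]
      norm_num
    rw [h4]
    apply Real.rpow_le_rpow (by positivity) _ (by norm_num)
    refine le_trans ?_ h2
    have h5 : ((4 / 3 : ℝ) ^ (12 / 5 : ℝ)) ^ (5 : ℕ) ≤ 2 ^ (5 : ℕ) := by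
      rw [← Real.rpow_natCast, ← Real.rpow_mul (by norm_num)]
      norm_num
    exact le_of_pow_le_pow_left₀ (by norm_num) (by norm_num) h5
  rw [Real.rpow_neg h0.le, inv_le_comm₀ (Real.rpow_pos_of_pos h0 _) (by norm_num)]
  calc (3 / 4 : ℝ)⁻¹ = 4 / 3 := by norm_num
    _ ≤ _ := h3

theorem pow1s_bounds {p : ℕ} (hp : p.Prime) (hs : s ≤ 1 / 2) : 0 < (p : ℝ) ^ (-(1 - s)) ∧
    (p : ℝ) ^ (-(1 - s)) ≤ 3 / 4 := by
  have h2 : (2 : ℝ) ≤ p := by exact_mod_cast hp.two_le
  have h0 : (0 : ℝ) < p := by linarith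
  refine ⟨Real.rpow_pos_of_pos h0 _, ?_⟩
  refine le_trans ?_ (pow512_bounds hp).2
  exact Real.rpow_le_rpow_of_exponent_le (by linarith) (by linarith)

open Classical in
/-- **one node** -/
theorem node_sum (hV : g.V ⊆ Icc 1 (N g)) (hβ : ∀ p, N g < p → β p = 0) (hh : ∀ p, 0 ≤ h p)
    (hs : s ≤ 1 / 2) {T : Finset ℕ} (hT : ∀ r ∈ T, XR g β D0 Om B t U Vm r) {r0 p : ℕ}
    (hr0 : XR g β D0 Om B t U Vm r0) (hp : p.Prime) (hsame : ∀ r ∈ T, SAb (eX β t0 Vm) p r0 r)
    (hinj : ∀ r ∈ T, ∀ r' ∈ T, eX β t0 Vm r p = eX β t0 Vm r' p → r = r') :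
    ∑ r ∈ T, wX β h s t0 U Vm p r ≤ 1 + xX g β D0 Om B t h s t0 p r0 := by
  by_cases hp0 : p ≤ t0
  · -- ignored primes
    have h1 : T.card ≤ 1 := by
      rw [card_le_one]
      intro a ha b hb
      apply hinj a ha b hb
      unfold eX
      rw [if_pos hp0, if_pos hp0]
    have h2 : ∀ r ∈ T, wX β h s t0 U Vm p r = 1 := by
      intro r _
      unfold wX
      rw [if_pos hp0]
    rw [sum_congr rfl h2, sum_const, nsmul_eq_mul, mul_one]
    have h3 := xX_nonneg (g := g) (β := β) (D0 := D0) (Om := Om) (B := B) (t := t) (s := s)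
      (t0 := t0) hh p r0
    have h4 : (T.card : ℝ) ≤ 1 := by exact_mod_cast h1
    linarith
  set b : ℝ := (p : ℝ) ^ (-(5 / 12) : ℝ) with hb
  set b' : ℝ := (p : ℝ) ^ (-(1 - s)) with hb'
  obtain ⟨hb0, hb1⟩ := pow512_bounds hp
  obtain ⟨hb0', hb1'⟩ := pow1s_bounds hp hs
  rw [← hb] at hb0 hb1
  rw [← hb'] at hb0' hb1'
  set W : ℕ → ℝ := fun e => (if RNX g β D0 B t p r0 then b ^ ad (β p) e else
    if e = β p then 1 else 0) + (if p ∈ Om then h p * (if e < β p then b' ^ (β p - e) else 0)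
      else 0) with hW
  have hpt : ∀ r ∈ T, wX β h s t0 U Vm p r ≤ W (eX β t0 Vm r p) := by
    intro r hr
    have hx := hT r hr
    have hcell := hr0.cell hx (not_le.1 hp0).le (hsame r hr)
    have hRN : RNX g β D0 B t p r0 ↔ RNX g β D0 B t p r := by
      unfold RNX
      rw [OffX_congr hcell]
    have i1 : 0 ≤ (if RNX g β D0 B t p r0 then b ^ ad (β p) (eX β t0 Vm r p) else
        if eX β t0 Vm r p = β p then (1 : ℝ) else 0) := by split_ifs <;> positivity
    have i2 : 0 ≤ (if p ∈ Om then h p * (if eX β t0 Vm r p < β p then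
        b' ^ (β p - eX β t0 Vm r p) else 0) else 0) := by
      have := hh p
      split_ifs <;> positivity
    show _ ≤ (if RNX g β D0 B t p r0 then b ^ ad (β p) (eX β t0 Vm r p) else
        if eX β t0 Vm r p = β p then (1 : ℝ) else 0) + (if p ∈ Om then h p *
        (if eX β t0 Vm r p < β p then b' ^ (β p - eX β t0 Vm r p) else 0) else 0)
    by_cases hU : p ∈ U r
    · obtain ⟨u1, u2⟩ := hx.hU p hU
      have hVn : p ∉ Vm r := fun hm => by have := (hx.hVm p hm).1; omega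
      have e1 : eX β t0 Vm r p = r.factorization p := by
        unfold eX
        rw [if_neg hp0, if_neg hVn]
      have e2 : wX β h s t0 U Vm p r = h p * b' ^ (β p - r.factorization p) := by
        unfold wX
        rw [if_neg hp0, if_pos hU]
      rw [e1] at i1 ⊢
      rw [e2, if_pos u2, if_pos u1]
      linarith
    · by_cases hVn : p ∈ Vm r
      · have e1 : eX β t0 Vm r p = β p := by
          unfold eX
          rw [if_neg hp0, if_pos hVn]
        have e2 : wX β h s t0 U Vm p r = 1 := by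
          unfold wX
          rw [if_neg hp0, if_neg hU, if_pos hVn]
        rw [e1] at i2 ⊢
        rw [e2, ad_self', pow_zero, if_pos rfl, ite_self]
        linarith
      · have e1 : eX β t0 Vm r p = r.factorization p := by
          unfold eX
          rw [if_neg hp0, if_neg hVn]
        have e2 : wX β h s t0 U Vm p r = b ^ ad (β p) (r.factorization p) := by
          unfold wX
          rw [if_neg hp0, if_neg hU, if_neg hVn]
        rw [e1] at i2 ⊢
        rw [e2]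
        by_cases hRr : RNX g β D0 B t p r0
        · rw [if_pos hRr]
          linarith
        · rw [if_neg hRr]
          have h1 := hx.rest_zero hV hβ hp hU hVn (fun h' => hRr (hRN.2 h'))
          rw [h1, ad_self', pow_zero, if_pos rfl]
          rw [h1] at i2
          linarith
  refine (sum_le_sum hpt).trans ?_
  have hsum : ∑ r ∈ T, W (eX β t0 Vm r p) = ∑ e ∈ T.image (fun r => eX β t0 Vm r p), W e := by
    rw [sum_image]
    intro a ha b hb' hab
    exact hinj a ha b hb' hab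
  rw [hsum]
  set E := T.image (fun r => eX β t0 Vm r p) with hE
  show ∑ e ∈ E, ((if RNX g β D0 B t p r0 then b ^ ad (β p) e else
    if e = β p then (1 : ℝ) else 0) + (if p ∈ Om then h p * (if e < β p then b' ^ (β p - e) else 0)
      else 0)) ≤ _
  rw [sum_add_distrib]
  have hA : ∑ e ∈ E, (if RNX g β D0 B t p r0 then b ^ ad (β p) e else
      if e = β p then (1 : ℝ) else 0) ≤ 1 +
      (if RNX g β D0 B t p r0 then 8 * b else 0) := by
    by_cases hR : RNX g β D0 B t p r0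
    · simp only [if_pos hR]
      refine (sum_ad_all hb0.le (by linarith) _ _).trans ?_
      rw [div_le_iff₀ (by linarith)]
      nlinarith
    · simp only [if_neg hR]
      rw [sum_ite_eq']
      split_ifs <;> norm_num
  have hB : ∑ e ∈ E, (if p ∈ Om then h p * (if e < β p then b' ^ (β p - e) else 0) else 0) ≤
      (if p ∈ Om then 4 * (h p * b') else 0) := by
    by_cases hO : p ∈ Om
    · simp only [if_pos hO]
      rw [← mul_sum]
      have h1 := sum_below hb0'.le (by linarith) (β p) E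
      have h2 : b' / (1 - b') ≤ 4 * b' := by
        rw [div_le_iff₀ (by linarith)]
        nlinarith
      calc h p * _ ≤ h p * (4 * b') := mul_le_mul_of_nonneg_left (h1.trans h2) (hh p)
        _ = _ := by ring
    · simp only [if_neg hO]
      rw [sum_const_zero]
  have e3 : xX g β D0 Om B t h s t0 p r0 = (if RNX g β D0 B t p r0 then 8 * b else 0) +
      (if p ∈ Om then 4 * (h p * b') else 0) := by
    unfold xX
    rw [if_neg hp0]
  rw [e3]
  linarith

/-- the reason why a node of the rest is paid -/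
theorem XR.node_dev {r p : ℕ} (hr : XR g β D0 Om B t U Vm r) (hzt : zs g ≤ t) (hp : p.Prime)
    (hR : RNX g β D0 B t p r) : p ≤ t ∨ p ∣ B ∨ p ∈ D0 ∨ p ∈ Vm r ∨
      p ∈ (NT.PzN (zs g) (N g)).filter
        (fun p => r.factorization p ≠ NT.kk g.V (f g) (thr g) (N g) r p) := by
  obtain ⟨hpN, h1⟩ := hR
  rcases h1 with h1 | h1 | h1 | h1
  · exact Or.inl h1
  · exact Or.inr (Or.inl h1)
  · exact Or.inr (Or.inr (Or.inl h1))
  by_cases hpt : p ≤ t
  · exact Or.inl hpt
  by_cases hpB : p ∣ B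
  · exact Or.inr (Or.inl hpB)
  by_cases hpV : p ∈ Vm r
  · exact Or.inr (Or.inr (Or.inr (Or.inl hpV)))
  right; right; right; right
  rw [mem_filter, NT.mem_PzN]
  refine ⟨⟨hp, by omega, hpN⟩, fun heq => ?_⟩
  obtain ⟨h2, h3⟩ := h1
  rw [← XR.kc_unsplit hpN h2] at h3
  have h4 : kc g r p = r.factorization p := by
    rw [heq]
    unfold kc NT.kN
    rw [if_pos hpN]
  have h5 := hr.hb p hp (not_le.1 hpt) hpN hpB hpV (by omega)
  omega

open Classical in
/-- the product of the weights of the nodes -/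
theorem XR.prod_le {r : ℕ} (hr : XR g β D0 Om B t U Vm r) (hzt : zs g ≤ t) (hh : ∀ p, 0 ≤ h p)
    (hB : 0 < B) (hD0 : ∑ p ∈ D0, (p : ℝ) ^ (-(5 / 12) : ℝ) ≤ 1 / 4) :
    ∏ p ∈ prN (N g), (1 + xX g β D0 Om B t h s t0 p r) ≤
      (∏ p ∈ Vm r, (1 + 8 * (p : ℝ) ^ (-(5 / 12) : ℝ))) *
      Real.exp (4 + 8 * (∑ p ∈ Ioc t0 t, (p : ℝ) ^ (-(5 / 12) : ℝ)) +
        32 * (Real.log B) ^ (7 / 12 : ℝ) + 4 * ∑ p ∈ Om, h p * (p : ℝ) ^ (-(1 - s))) := by
  set Dv : Finset ℕ := (NT.PzN (zs g) (N g)).filter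
    (fun p => r.factorization p ≠ NT.kk g.V (f g) (thr g) (N g) r p) with hDv
  set v : ℕ → ℝ := fun p => (p : ℝ) ^ (-(5 / 12) : ℝ) with hv
  have hv0 : ∀ p, 0 ≤ v p := fun p => Real.rpow_nonneg (Nat.cast_nonneg _) _
  set y : ℕ → ℝ := fun p => 8 * ((if p ∈ Ioc t0 t then v p else 0) +
    (if p ∈ B.primeFactors then v p else 0) + (if p ∈ D0 then v p else 0) +
    (if p ∈ Dv then v p else 0)) + (if p ∈ Om then 4 * (h p * (p : ℝ) ^ (-(1 - s))) else 0) with hy
  have hpt : ∀ p ∈ prN (N g), 1 + xX g β D0 Om B t h s t0 p r ≤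
      (if p ∈ Vm r then 1 + 8 * v p else 1) * Real.exp (y p) := by
    intro p hp
    have hpp := (mem_filter.1 hp).2
    have hhp := hh p
    have hvp := hv0 p
    have j1 : 0 ≤ (if p ∈ Ioc t0 t then v p else 0) := by split_ifs <;> simp [hvp]
    have j2 : 0 ≤ (if p ∈ B.primeFactors then v p else 0) := by split_ifs <;> simp [hvp]
    have j3 : 0 ≤ (if p ∈ D0 then v p else 0) := by split_ifs <;> simp [hvp]
    have j4 : 0 ≤ (if p ∈ Dv then v p else 0) := by split_ifs <;> simp [hvp]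
    have j5 : 0 ≤ (if p ∈ Om then 4 * (h p * (p : ℝ) ^ (-(1 - s))) else 0) := by
      split_ifs <;> positivity
    have hy1 : 1 + y p ≤ Real.exp (y p) := by
      have := Real.add_one_le_exp (y p)
      linarith
    have hy0 : 0 ≤ y p := by
      show 0 ≤ 8 * (_ + _ + _ + _) + _
      linarith
    have hV1 : (1 : ℝ) ≤ (if p ∈ Vm r then 1 + 8 * v p else 1) := by split_ifs <;> linarith
    have hmain : 1 + xX g β D0 Om B t h s t0 p r ≤
        (if p ∈ Vm r then 1 + 8 * v p else 1) * (1 + y p) := by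
      unfold xX
      by_cases hp0 : p ≤ t0
      · rw [if_pos hp0]
        nlinarith
      rw [if_neg hp0]
      by_cases hR : RNX g β D0 B t p r
      · rw [if_pos hR]
        by_cases hpV : p ∈ Vm r
        · rw [if_pos hpV]
          show 1 + (8 * v p + _) ≤ (1 + 8 * v p) * (1 + (8 * (_ + _ + _ + _) + _))
          nlinarith
        · rw [if_neg hpV]
          rcases hr.node_dev hzt hpp hR with h1 | h1 | h1 | h1 | h1
          · have : p ∈ Ioc t0 t := mem_Ioc.2 ⟨not_le.1 hp0, h1⟩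
            show 1 + (8 * v p + _) ≤ 1 * (1 + (8 * (_ + _ + _ + _) + _))
            rw [if_pos this]
            linarith
          · have : p ∈ B.primeFactors := Nat.mem_primeFactors.2 ⟨hpp, h1, hB.ne'⟩
            show 1 + (8 * v p + _) ≤ 1 * (1 + (8 * (_ + _ + _ + _) + _))
            rw [if_pos this]
            linarith
          · show 1 + (8 * v p + _) ≤ 1 * (1 + (8 * (_ + _ + _ + _) + _))
            rw [if_pos h1]
            linarith
          · exact absurd h1 hpV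
          · show 1 + (8 * v p + _) ≤ 1 * (1 + (8 * (_ + _ + _ + _) + _))
            rw [if_pos h1]
            linarith
      · rw [if_neg hR, zero_add]
        have : (1 : ℝ) + (if p ∈ Om then 4 * (h p * (p : ℝ) ^ (-(1 - s))) else 0) ≤ 1 + y p := by
          show _ ≤ 1 + (8 * (_ + _ + _ + _) + _)
          linarith
        nlinarith
    exact hmain.trans (mul_le_mul_of_nonneg_left hy1 (by linarith))
  refine (prod_le_prod (fun p _ => by
    have := xX_nonneg (g := g) (β := β) (D0 := D0) (Om := Om) (B := B) (t := t) (s := s)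
      (t0 := t0) hh p r
    linarith) hpt).trans ?_
  rw [prod_mul_distrib, ← Real.exp_sum]
  have e1 : ∏ p ∈ prN (N g), (if p ∈ Vm r then 1 + 8 * v p else 1) =
      ∏ p ∈ Vm r, (1 + 8 * v p) := by
    rw [← prod_filter]
    congr 1
    ext p
    constructor
    · exact fun hp => (mem_filter.1 hp).2
    · intro hp
      obtain ⟨h1, h2, h3⟩ := hr.hVp p hp
      exact mem_filter.2 ⟨mem_filter.2 ⟨mem_Icc.2 ⟨h1.pos, h3⟩, h1⟩, hp⟩
  rw [e1]
  refine mul_le_mul_of_nonneg_left (Real.exp_le_exp.2 ?_)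
    (prod_nonneg fun p _ => by have := hv0 p; linarith)
  show ∑ p ∈ prN (N g), (8 * ((if p ∈ Ioc t0 t then v p else 0) +
    (if p ∈ B.primeFactors then v p else 0) + (if p ∈ D0 then v p else 0) +
    (if p ∈ Dv then v p else 0)) + (if p ∈ Om then 4 * (h p * (p : ℝ) ^ (-(1 - s))) else 0)) ≤ _
  rw [sum_add_distrib, ← mul_sum, sum_add_distrib, sum_add_distrib, sum_add_distrib]
  have hsub : ∀ (S : Finset ℕ) (φ : ℕ → ℝ), (∀ p, 0 ≤ φ p) →
      ∑ p ∈ prN (N g), (if p ∈ S then φ p else 0) ≤ ∑ p ∈ S, φ p := by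
    intro S φ hφ
    rw [← sum_filter]
    exact sum_le_sum_of_subset_of_nonneg (fun p hp => (mem_filter.1 hp).2) fun p _ _ => hφ p
  have e2 := hsub (Ioc t0 t) v hv0
  have e3 := hsub B.primeFactors v hv0
  have e4 := hsub D0 v hv0
  have e5 := hsub Dv v hv0
  have e6 := hsub Om (fun p => 4 * (h p * (p : ℝ) ^ (-(1 - s)))) (fun p => by
    have := hh p
    positivity)
  have e7 : ∑ p ∈ Dv, v p ≤ 1 / 4 := by
    refine le_trans (sum_le_sum fun p hp => ?_) hr.wr
    have h4 : (1 : ℝ) ≤ p := by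
      exact_mod_cast (NT.mem_PzN.1 (mem_filter.1 hp).1).1.one_le
    exact Real.rpow_le_rpow_of_exponent_le h4 (by norm_num)
  have e8 := sum_primeFactors_le hB
  have e9 : ∑ p ∈ Om, 4 * (h p * (p : ℝ) ^ (-(1 - s))) =
      4 * ∑ p ∈ Om, h p * (p : ℝ) ^ (-(1 - s)) := by rw [mul_sum]
  rw [e9] at e6
  have e10 : ∑ p ∈ B.primeFactors, v p ≤ 4 * (Real.log B) ^ (7 / 12 : ℝ) := e8
  have e11 : ∑ p ∈ D0, v p ≤ 1 / 4 := hD0
  linarith

open Classical in
/-- **The tree over the rest patterns, with adders and removers.** -/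
theorem x1t (hV : g.V ⊆ Icc 1 (N g)) (hβ : ∀ p, N g < p → β p = 0) (hzt : zs g ≤ t)
    (hB : 0 < B) (hh : ∀ p, 0 ≤ h p) (hs : s ≤ 1 / 2)
    (hD0 : ∑ p ∈ D0, (p : ℝ) ^ (-(5 / 12) : ℝ) ≤ 1 / 4) {S : Finset ℕ}
    (hS : ∀ r ∈ S, XR g β D0 Om B t U Vm r) {ω : ℕ → ℝ} (hω : ∀ r, 0 ≤ ω r) {K0 : ℝ}
    (hK0 : 0 ≤ K0)
    (hfib : ∀ T ⊆ S, (∀ r ∈ T, ∀ r' ∈ T, ∀ p : ℕ, p.Prime → t0 < p →
      (if p ∈ Vm r then β p else r.factorization p) =
        (if p ∈ Vm r' then β p else r'.factorization p)) →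
      ∑ r ∈ T, ω r * ∏ p ∈ Vm r, (1 + 8 * (p : ℝ) ^ (-(5 / 12) : ℝ)) ≤ K0) :
    ∑ r ∈ S, ω r * ∏ p ∈ prN (N g), wX β h s t0 U Vm p r ≤
      K0 * Real.exp (4 + 8 * (∑ p ∈ Ioc t0 t, (p : ℝ) ^ (-(5 / 12) : ℝ)) +
        32 * (Real.log B) ^ (7 / 12 : ℝ) + 4 * ∑ p ∈ Om, h p * (p : ℝ) ^ (-(1 - s))) := by
  set Y := Real.exp (4 + 8 * (∑ p ∈ Ioc t0 t, (p : ℝ) ^ (-(5 / 12) : ℝ)) +
        32 * (Real.log B) ^ (7 / 12 : ℝ) + 4 * ∑ p ∈ Om, h p * (p : ℝ) ^ (-(1 - s))) with hY
  have hY0 : 0 < Y := Real.exp_pos _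
  set ω' : ℕ → ℝ := fun r => ω r * ∏ p ∈ Vm r, (1 + 8 * (p : ℝ) ^ (-(5 / 12) : ℝ)) with hω'
  have hω'0 : ∀ r, 0 ≤ ω' r := fun r => mul_nonneg (hω r) (prod_nonneg fun p _ => by
    have : 0 ≤ (p : ℝ) ^ (-(5 / 12) : ℝ) := by positivity
    linarith)
  have hw0 := wX_nonneg (β := β) (h := h) (s := s) (t0 := t0) (U := U) (Vm := Vm) hh
  have hx0 := xX_nonneg (g := g) (β := β) (D0 := D0) (Om := Om) (B := B) (t := t) (h := h)
    (s := s) (t0 := t0) hh
  have key := treeG (eX β t0 Vm) (wX β h s t0 U Vm) (xX g β D0 Om B t h s t0) ω' hK0 hω'0 hw0 hx0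
    (N g) S (by
      intro r hr r' hr' p hp hlt
      have n1 : p ∉ Vm r := fun hm => by have := ((hS r hr).hVp p hm).2.2; omega
      have n2 : p ∉ Vm r' := fun hm => by have := ((hS r' hr').hVp p hm).2.2; omega
      have hr1 := mem_Icc.1 (hV (hS r hr).mr)
      have hr2 := mem_Icc.1 (hV (hS r' hr').mr)
      unfold eX
      rw [if_neg n1, if_neg n2, Nat.factorization_eq_zero_of_lt (show r < p by omega),
        Nat.factorization_eq_zero_of_lt (show r' < p by omega)])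
    (by
      intro T hT hsT
      refine hfib T hT fun r hr r' hr' p hp hlt => ?_
      have h1 := hsT r hr r' hr' p hp
      unfold eX at h1
      rwa [if_neg (not_le.2 hlt), if_neg (not_le.2 hlt)] at h1)
    (fun r hr r' hr' p _ hsm => xX_congr (hS r hr) (hS r' hr') hsm)
    (fun r0 hr0 p hp T hT hsT hinj => node_sum hV hβ hh hs (fun r hr => hS r (hT hr)) (hS r0 hr0)
      hp hsT hinj)
  have hterm : ∀ r ∈ S, ω r * ∏ p ∈ prN (N g), wX β h s t0 U Vm p r ≤
      Y * (ω' r * ∏ p ∈ prN (N g), (wX β h s t0 U Vm p r /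
        (1 + xX g β D0 Om B t h s t0 p r))) := by
    intro r hr
    have h1 := (hS r hr).prod_le (s := s) (t0 := t0) hzt hh hB hD0
    have h2 : ∀ p ∈ prN (N g), 0 < 1 + xX g β D0 Om B t h s t0 p r := fun p _ => by
      have := hx0 p r
      linarith
    have h3 : ∏ p ∈ prN (N g), wX β h s t0 U Vm p r =
        (∏ p ∈ prN (N g), (1 + xX g β D0 Om B t h s t0 p r)) *
        ∏ p ∈ prN (N g), (wX β h s t0 U Vm p r / (1 + xX g β D0 Om B t h s t0 p r)) := by
      rw [← prod_mul_distrib]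
      refine prod_congr rfl fun p hp => ?_
      rw [mul_div_cancel₀]
      exact (h2 p hp).ne'
    have h4 : 0 ≤ ∏ p ∈ prN (N g), (wX β h s t0 U Vm p r /
        (1 + xX g β D0 Om B t h s t0 p r)) :=
      prod_nonneg fun p hp => div_nonneg (hw0 p r) (h2 p hp).le
    rw [h3]
    calc ω r * ((∏ p ∈ prN (N g), (1 + xX g β D0 Om B t h s t0 p r)) *
          ∏ p ∈ prN (N g), (wX β h s t0 U Vm p r / (1 + xX g β D0 Om B t h s t0 p r))) ≤
        ω r * (((∏ p ∈ Vm r, (1 + 8 * (p : ℝ) ^ (-(5 / 12) : ℝ))) * Y) *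
          ∏ p ∈ prN (N g), (wX β h s t0 U Vm p r / (1 + xX g β D0 Om B t h s t0 p r))) :=
        mul_le_mul_of_nonneg_left (mul_le_mul_of_nonneg_right h1 h4) (hω r)
      _ = Y * (ω' r * ∏ p ∈ prN (N g), (wX β h s t0 U Vm p r /
        (1 + xX g β D0 Om B t h s t0 p r))) := by
        show _ = Y * ((ω r * _) * _)
        ring
  refine (sum_le_sum hterm).trans ?_
  rw [← mul_sum]
  calc Y * _ ≤ Y * K0 := mul_le_mul_of_nonneg_left key hY0.le
    _ = K0 * Y := mul_comm _ _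

end Vale.P028.SK
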