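-- RD-BASE ad0745915506a389b727c1db235e0a7c52a127f7
import Vale.Agent.P028.MathlibUsed
import Vale.Agent.P028.RD.H279.X1T
import Vale.Agent.P028.RD.H383.RemX
import Vale.Agent.P028.RD.H6.Adders
attribute [-instance] ProperSMul.toContinuousSMul IsTopologicalTorsor.toContinuousSMul IdemSemiring.toCanonicallyOrderedAdd IdemSemiring.toMulLeftMono IdemSemiring.toMulRightMono AddQuantale.instAddLeftMono AddQuantale.instAddRightMono Quantale.instMulLeftMono Quantale.instMulRightMono FiniteDimensional.rclike_to_real IsScalarTower.complexToReal FiniteDimensional.complexToReal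

/-!
# The row at a fixed stage: adders, removers and rest, with cuts `t0` below and `x` above
-/

namespace Vale.P028.SK

open Finset CF RN

open Classical in
/-- the weight of the labels at `p` -/
noncomputable def w1 (g : Cfg) (c1 c lam s : ℝ) (t B q r p : ℕ) : ℝ :=
  if t < p ∧ ¬ p ∣ B ∧ r.factorization p < q.factorization p ∧
      q.factorization p = kc g q p then
    lam * dd g c1 c q p * ((p ^ (q.factorization p - r.factorization p) : ℕ) : ℝ) ^ (-(1 - s))
  else if t < p ∧ ¬ p ∣ B ∧ q.factorization p < r.factorization p ∧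
      r.factorization p = kc g r p then
    lam * dd g c1 c r p
  else ((p ^ ((q.factorization p - r.factorization p) +
    (r.factorization p - q.factorization p)) : ℕ) : ℝ) ^ (-(5 / 12 : ℝ))

theorem dev_sum_le {g : Cfg} {q t : ℕ} (hzt : zs g ≤ t) (hq : WW w3 g q ≤ 1 / 4) :
    ∑ p ∈ (prN (N g)).filter (fun p => t < p ∧ q.factorization p < kc g q p),
      (p : ℝ) ^ (-(5 / 12) : ℝ) ≤ 1 / 4 := by
  refine le_trans (sum_le_sum fun p hp => ?_) (le_trans (sum_le_sum_of_subset_of_nonneg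
    (f := w3) (fun p hp => ?_) fun _ _ _ => w3_nonneg _) hq)
  · have hp1 : p.Prime := (mem_filter.1 (mem_filter.1 hp).1).2
    exact Real.rpow_le_rpow_of_exponent_le (by exact_mod_cast hp1.one_lt.le) (by norm_num)
  · obtain ⟨h1, h2, h3⟩ := mem_filter.1 hp
    obtain ⟨h4, h5⟩ := mem_filter.1 h1
    have h6 := mem_Icc.1 h4
    rw [mem_filter, NT.mem_PzN]
    refine ⟨⟨h5, by omega, h6.2⟩, ?_⟩
    have h7 : kc g q p = NT.kk g.V (f g) (thr g) (N g) q p := by
      unfold kc NT.kN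
      rw [if_pos h6.2]
    omega

theorem x1core {g : Cfg} (hV : g.V ⊆ Icc 1 (N g)) {c1 c lam s : ℝ} (h1 : 0 < c1)
    (hc1 : c1 ≤ Real.exp (-8)) (hz : 2 ≤ c1 * zs g) (hc : 0 ≤ c) (hc' : c ≤ 1 / 1000)
    (hl : 1 ≤ lam) (hl' : lam ≤ 2) (hs : 0 ≤ s) (hs' : s ≤ 1 / 4) {q t0 t x B : ℕ}
    (hzt : zs g ≤ t) (ht0 : t0 ≤ t) (hxs : (x : ℝ) ^ s ≤ Real.exp 8)
    (hq : q ∈ V1 g) (hB : 0 < B) {S : Finset ℕ} (hS : ∀ r ∈ S, r ∈ V1 g)
    (hout : ∀ r ∈ S, ∀ r' ∈ S, ∀ p : ℕ, p.Prime → x < p → r.factorization p = r'.factorization p)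
    (hinj : ∀ r ∈ S, ∀ r' ∈ S, (∀ p : ℕ, p.Prime → t0 < p →
      r.factorization p = r'.factorization p) → r = r')
    (ha : ∀ r ∈ S, ∀ p : ℕ, p.Prime → t < p → p ≤ x → ¬ p ∣ B →
      r.factorization p < q.factorization p → q.factorization p < kc g q p ∨
        (q.factorization p = kc g q p ∧ dd g c1 c q p ≠ 0))
    (hb : ∀ r ∈ S, ∀ p : ℕ, p.Prime → t < p → p ≤ x → ¬ p ∣ B →
      q.factorization p < r.factorization p → r.factorization p < kc g r p ∨
        (r.factorization p = kc g r p ∧ dd g c1 c r p ≠ 0))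
    (hph : ∀ r ∈ S, ∃ a ∈ NwP g r, a ≤ N g - x ∧ N g - t ≤ nxw g r a)
    (hphq : ∃ a ∈ NwP g q, a ≤ N g - x ∧ N g - t ≤ nxw g q a) :
    ∑ r ∈ S, ∏ p ∈ (prN (N g)).filter (fun p => t0 < p ∧ p ≤ x), w1 g c1 c lam s t B q r p ≤
      Real.exp (6 + 8 * (∑ p ∈ Ioc t0 t, (p : ℝ) ^ (-(5 / 12) : ℝ)) +
        32 * (Real.log B) ^ (7 / 12 : ℝ)) := by
  classical
  rcases S.eq_empty_or_nonempty with hS0 | ⟨r0, hr0⟩
  · rw [hS0, sum_empty]
    exact (Real.exp_pos _).le
  set β : ℕ → ℕ := fun p => if p ≤ x then q.factorization p else r0.factorization p with hβ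
  set U : ℕ → Finset ℕ := fun r => (prN (N g)).filter (fun p => p ≤ x ∧ t < p ∧ ¬ p ∣ B ∧
    r.factorization p < q.factorization p ∧ q.factorization p = kc g q p) with hU
  set Vm : ℕ → Finset ℕ := fun r => (prN (N g)).filter (fun p => p ≤ x ∧ t < p ∧ ¬ p ∣ B ∧
    q.factorization p < r.factorization p ∧ r.factorization p = kc g r p) with hVm
  set Om : Finset ℕ := (prN (N g)).filter (fun p => p ≤ x ∧ t < p ∧ dd g c1 c q p ≠ 0) with hOm
  set D0 : Finset ℕ := (prN (N g)).filter (fun p => t < p ∧ q.factorization p < kc g q p) with hD0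
  set h : ℕ → ℝ := fun p => lam * dd g c1 c q p with hh
  have hdd : ∀ r p, 0 ≤ dd g c1 c r p := fun r p => dd_nonneg h1.le hc r p
  have hh0 : ∀ p, 0 ≤ h p := fun p => mul_nonneg (by linarith) (hdd q p)
  have hSV : ∀ r ∈ S, r ∈ g.V := fun r hr => (mem_filter.1 (V1_sub g (hS r hr))).1
  have hqV : q ∈ g.V := (mem_filter.1 (V1_sub g hq)).1
  have hbig : ∀ r ∈ g.V, ∀ p, N g < p → r.factorization p = 0 := fun r hr p hp => by
    have := mem_Icc.1 (hV hr)
    exact Nat.factorization_eq_zero_of_lt (by omega)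
  have hmem : ∀ {p : ℕ}, p ∈ prN (N g) ↔ p.Prime ∧ p ≤ N g := by
    intro p
    unfold prN
    rw [mem_filter, mem_Icc]
    constructor
    · rintro ⟨⟨-, h2⟩, h3⟩
      exact ⟨h3, h2⟩
    · rintro ⟨h3, h2⟩
      exact ⟨⟨h3.pos, h2⟩, h3⟩
  have hβ0 : ∀ p, N g < p → β p = 0 := by
    intro p hp
    show (if p ≤ x then q.factorization p else r0.factorization p) = 0
    split_ifs
    · exact hbig q hqV p hp
    · exact hbig r0 (hSV r0 hr0) p hp
  have hβx : ∀ p, p ≤ x → β p = q.factorization p := fun p hp => if_pos hp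
  have hβx' : ∀ r ∈ S, ∀ p : ℕ, p.Prime → x < p → β p = r.factorization p := by
    intro r hr p hp hlt
    show (if p ≤ x then q.factorization p else r0.factorization p) = _
    rw [if_neg (not_le.2 hlt)]
    exact hout r0 hr0 r hr p hp hlt
  have hXR : ∀ r ∈ S, XR g β D0 Om B t U Vm r := by
    intro r hr
    refine ⟨hSV r hr, (mem_filter.1 (hS r hr)).2, ?_, ?_, ?_, ?_, ?_⟩
    · intro p hp
      obtain ⟨i1, i2, i3, i4, i5, i6⟩ := mem_filter.1 hp
      obtain ⟨j1, j2⟩ := hmem.1 i1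
      refine ⟨by rw [hβx p i2]; exact i5, mem_filter.2 ⟨i1, i2, i3, ?_⟩⟩
      rcases ha r hr p j1 i3 i2 i4 i5 with h' | h'
      · omega
      · exact h'.2
    · intro p hp
      obtain ⟨i1, i2, i3, i4, i5, i6⟩ := mem_filter.1 hp
      obtain ⟨j1, j2⟩ := hmem.1 i1
      exact ⟨j1, i3, j2⟩
    · intro p hp
      obtain ⟨i1, i2, i3, i4, i5, i6⟩ := mem_filter.1 hp
      obtain ⟨j1, j2⟩ := hmem.1 i1
      refine ⟨by rw [hβx p i2]; exact i5, ?_⟩
      rcases hb r hr p j1 i3 i2 i4 i5 with h' | h'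
      · omega
      · have e : N g - (N g - p) = p := by omega
        have h'' : dd g c1 c r (N g - (N g - p)) ≠ 0 := by rw [e]; exact h'.2
        obtain ⟨a, -, -, -, -, -, -, -, -, h3⟩ := dd_ne h'' (by have := j1.pos; omega)
        rw [e] at h3
        exact h3
    · intro p hp htp hpN hpB hpU hlt
      rcases le_or_gt p x with hpx | hpx
      · rw [hβx p hpx] at hlt ⊢
        rcases ha r hr p hp htp hpx hpB hlt with h' | h'
        · exact Or.inl (mem_filter.2 ⟨hmem.2 ⟨hp, hpN⟩, htp, h'⟩)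
        · exact absurd (mem_filter.2 ⟨hmem.2 ⟨hp, hpN⟩, hpx, htp, hpB, hlt, h'.1⟩) hpU
      · rw [hβx' r hr p hp hpx] at hlt
        omega
    · intro p hp htp hpN hpB hpV hlt
      rcases le_or_gt p x with hpx | hpx
      · rw [hβx p hpx] at hlt
        rcases hb r hr p hp htp hpx hpB hlt with h' | h'
        · exact h'
        · exact absurd (mem_filter.2 ⟨hmem.2 ⟨hp, hpN⟩, hpx, htp, hpB, hlt, h'.1⟩) hpV
      · rw [hβx' r hr p hp hpx] at hlt
        omega
  set ω : ℕ → ℝ := fun r => ∏ p ∈ Vm r, (lam * dd g c1 c r p) with hω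
  have hω0 : ∀ r, 0 ≤ ω r := fun r => prod_nonneg fun p _ => mul_nonneg (by linarith) (hdd r p)
  have key := x1t hV hβ0 hzt hB hh0 (by linarith : s ≤ 1 / 2)
    (dev_sum_le hzt (mem_filter.1 hq).2) hXR hω0 (K0 := 2) (by norm_num) (t0 := t0) (by
      intro T hT hTe
      have hlc : 9 * lam * c < 1 := by nlinarith
      have r1 := rem_sum (g := g) h1 hz hc (by linarith : 0 ≤ 9 * lam) hlc (Y := T)
        (fun r hr => hSV r (hT hr)) hzt (fun r hr => hph r (hT hr)) Vm (by
          intro r hr p hp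
          obtain ⟨i1, i2, i3, i4, i5, i6⟩ := mem_filter.1 hp
          obtain ⟨j1, j2⟩ := hmem.1 i1
          exact ⟨j2, i3, by omega, i6⟩) (by
          intro r hr r' hr' p hp htp hpN n1 n2
          have := hTe r hr r' hr' p hp (by omega)
          rwa [if_neg n1, if_neg n2] at this) (by
          intro r hr r' hr' p hp n2
          obtain ⟨i1, i2, i3, i4, i5, i6⟩ := mem_filter.1 hp
          obtain ⟨j1, j2⟩ := hmem.1 i1
          have := hTe r hr r' hr' p j1 (by omega)
          rw [if_pos hp, if_neg n2, hβx p i2] at this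
          omega) (by
          intro r hr r' hr' hsame
          refine hinj r (hT hr) r' (hT hr') fun p hp hlt => ?_
          rcases le_or_gt p (N g) with hpN | hpN
          · rcases le_or_gt p t with hpt | hpt
            · have n1 : p ∉ Vm r := fun hm => by have := (mem_filter.1 hm).2.2.1; omega
              have n2 : p ∉ Vm r' := fun hm => by have := (mem_filter.1 hm).2.2.1; omega
              have := hTe r hr r' hr' p hp hlt
              rwa [if_neg n1, if_neg n2] at this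
            · exact hsame p hp hpt hpN
          · rw [hbig r (hSV r (hT hr)) p hpN, hbig r' (hSV r' (hT hr')) p hpN])
      refine le_trans (sum_le_sum fun r hr => ?_) (r1.trans ?_)
      · show (∏ p ∈ Vm r, (lam * dd g c1 c r p)) * _ ≤ _
        rw [← prod_mul_distrib]
        refine prod_le_prod (fun p hp => ?_) fun p hp => ?_
        · have : 0 ≤ (p : ℝ) ^ (-(5 / 12) : ℝ) := by positivity
          exact mul_nonneg (mul_nonneg (by linarith) (hdd r p)) (by linarith)
        · obtain ⟨i1, -⟩ := mem_filter.1 hp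
          have hp1 : (1 : ℝ) ≤ p := by exact_mod_cast (hmem.1 i1).1.one_lt.le
          have h5 : (p : ℝ) ^ (-(5 / 12) : ℝ) ≤ 1 :=
            Real.rpow_le_one_of_one_le_of_nonpos hp1 (by norm_num)
          have h6 := mul_nonneg (by linarith : (0:ℝ) ≤ lam) (hdd r p)
          nlinarith
      · rw [div_le_iff₀ (by linarith)]
        nlinarith)
  have hpt : ∀ r ∈ S, ∏ p ∈ (prN (N g)).filter (fun p => t0 < p ∧ p ≤ x),
      w1 g c1 c lam s t B q r p = ω r * ∏ p ∈ prN (N g), wX β h s t0 U Vm p r := by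
    intro r hr
    have e1 : ∏ p ∈ prN (N g), wX β h s t0 U Vm p r =
        ∏ p ∈ (prN (N g)).filter (fun p => t0 < p ∧ p ≤ x), wX β h s t0 U Vm p r := by
      rw [prod_filter]
      refine prod_congr rfl fun p hp => ?_
      split_ifs with h'
      · rfl
      · unfold wX
        split_ifs with i1 i2 i3
        · rfl
        · have := (mem_filter.1 i2).2.1
          exact absurd ⟨not_le.1 i1, this⟩ h'
        · rfl
        · have hxp : x < p := by
            by_contra hcon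
            exact h' ⟨not_le.1 i1, not_lt.1 hcon⟩
          rw [hβx' r hr p (hmem.1 hp).1 hxp]
          unfold ad
          rw [Nat.sub_self, add_zero, pow_zero]
    have e2 : ω r = ∏ p ∈ (prN (N g)).filter (fun p => t0 < p ∧ p ≤ x),
        (if p ∈ Vm r then lam * dd g c1 c r p else 1) := by
      show ∏ p ∈ Vm r, _ = _
      rw [← prod_filter]
      refine prod_congr ?_ fun _ _ => rfl
      ext p
      constructor
      · intro hp
        obtain ⟨i1, i2, i3, -⟩ := mem_filter.1 hp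
        exact mem_filter.2 ⟨mem_filter.2 ⟨i1, by omega, i2⟩, hp⟩
      · exact fun hp => (mem_filter.1 hp).2
    rw [e1, e2, ← prod_mul_distrib]
    refine prod_congr rfl fun p hp => ?_
    obtain ⟨i1, i2, i3⟩ := mem_filter.1 hp
    obtain ⟨j1, j2⟩ := hmem.1 i1
    have hp0 : (0 : ℝ) < p := by exact_mod_cast j1.pos
    unfold w1 wX
    rw [if_neg (not_le.2 i2)]
    by_cases hU' : t < p ∧ ¬ p ∣ B ∧ r.factorization p < q.factorization p ∧
      q.factorization p = kc g q p
    · obtain ⟨k1, k2, k3, k4⟩ := hU'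
      have m1 : p ∈ U r := mem_filter.2 ⟨i1, i3, k1, k2, k3, k4⟩
      have m2 : p ∉ Vm r := fun hm => by
        have := (mem_filter.1 hm).2.2.2.2.1
        omega
      rw [if_pos ⟨k1, k2, k3, k4⟩, if_neg m2, if_pos m1, one_mul, hβx p i3]
      show lam * dd g c1 c q p * _ = lam * dd g c1 c q p * _
      congr 1
      push_cast
      rw [← Real.rpow_natCast, ← Real.rpow_natCast, ← Real.rpow_mul hp0.le,
        ← Real.rpow_mul hp0.le]
      congr 1
      ring
    · have m1 : p ∉ U r := fun hm => by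
        obtain ⟨-, -, k1, k2, k3, k4⟩ := mem_filter.1 hm
        exact hU' ⟨k1, k2, k3, k4⟩
      rw [if_neg hU', if_neg m1]
      by_cases hV' : t < p ∧ ¬ p ∣ B ∧ q.factorization p < r.factorization p ∧
        r.factorization p = kc g r p
      · obtain ⟨k1, k2, k3, k4⟩ := hV'
        have m2 : p ∈ Vm r := mem_filter.2 ⟨i1, i3, k1, k2, k3, k4⟩
        rw [if_pos ⟨k1, k2, k3, k4⟩, if_pos m2, if_pos m2, mul_one]
      · have m2 : p ∉ Vm r := fun hm => by
          obtain ⟨-, -, k1, k2, k3, k4⟩ := mem_filter.1 hm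
          exact hV' ⟨k1, k2, k3, k4⟩
        rw [if_neg hV', if_neg m2, if_neg m2, one_mul, hβx p i3]
        unfold ad
        push_cast
        rw [← Real.rpow_natCast, ← Real.rpow_natCast, ← Real.rpow_mul hp0.le,
          ← Real.rpow_mul hp0.le]
        congr 1
        ring
  rw [sum_congr rfl hpt]
  refine key.trans ?_
  have hOsum : ∑ p ∈ Om, h p * (p : ℝ) ^ (-(1 - s)) ≤ 1 / 8 := by
    obtain ⟨a, ha1, ha2, ha3⟩ := hphq
    have g1 := sum_dd_phase h1 hc ha1 (U := Om) (by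
      intro p hp
      obtain ⟨i1, i2, i3, i4⟩ := mem_filter.1 hp
      obtain ⟨j1, j2⟩ := hmem.1 i1
      exact ⟨j2, j1.pos, by omega, by omega, i4⟩)
    have g2 : ∑ p ∈ Om, h p * (p : ℝ) ^ (-(1 - s)) ≤
        ∑ p ∈ Om, lam * Real.exp 8 * (dd g c1 c q p / p) := by
      refine sum_le_sum fun p hp => ?_
      obtain ⟨i1, i2, i3, i4⟩ := mem_filter.1 hp
      obtain ⟨j1, j2⟩ := hmem.1 i1
      have hp0 : (0 : ℝ) < p := by exact_mod_cast j1.pos
      have e1 : (p : ℝ) ^ (-(1 - s)) = (p : ℝ) ^ s * (p : ℝ)⁻¹ := by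
        rw [show -(1 - s) = s + -1 by ring, Real.rpow_add hp0, Real.rpow_neg_one]
      have e2 : (p : ℝ) ^ s ≤ Real.exp 8 :=
        (Real.rpow_le_rpow hp0.le (by exact_mod_cast i2) hs).trans hxs
      rw [e1]
      show lam * dd g c1 c q p * _ ≤ _
      rw [div_eq_mul_inv]
      have e3 : 0 ≤ lam * dd g c1 c q p * (p : ℝ)⁻¹ :=
        mul_nonneg (mul_nonneg (by linarith) (hdd q p)) (inv_nonneg.2 hp0.le)
      nlinarith [mul_le_mul_of_nonneg_left e2 e3]
    refine g2.trans ?_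
    rw [← mul_sum]
    have g3 : Real.exp 8 * c1 ≤ 1 := by
      calc Real.exp 8 * c1 ≤ Real.exp 8 * Real.exp (-8) :=
            mul_le_mul_of_nonneg_left hc1 (Real.exp_pos _).le
        _ = 1 := by rw [← Real.exp_add]; norm_num
    have g4 : (0:ℝ) ≤ Real.exp 8 := (Real.exp_pos _).le
    calc lam * Real.exp 8 * ∑ p ∈ Om, dd g c1 c q p / p ≤ lam * Real.exp 8 * (c * c1 / 2) :=
          mul_le_mul_of_nonneg_left g1 (mul_nonneg (by linarith) g4)
      _ = lam * c / 2 * (Real.exp 8 * c1) := by ring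
      _ ≤ lam * c / 2 * 1 := mul_le_mul_of_nonneg_left g3 (by positivity)
      _ ≤ 1 / 8 := by nlinarith
  have h2 : (2 : ℝ) ≤ Real.exp 1 := by
    have := Real.add_one_le_exp (1 : ℝ)
    linarith
  calc 2 * Real.exp (4 + 8 * (∑ p ∈ Ioc t0 t, (p : ℝ) ^ (-(5 / 12) : ℝ)) +
        32 * (Real.log B) ^ (7 / 12 : ℝ) + 4 * ∑ p ∈ Om, h p * (p : ℝ) ^ (-(1 - s))) ≤
      Real.exp 1 * Real.exp (4 + 8 * (∑ p ∈ Ioc t0 t, (p : ℝ) ^ (-(5 / 12) : ℝ)) +
        32 * (Real.log B) ^ (7 / 12 : ℝ) + 4 * ∑ p ∈ Om, h p * (p : ℝ) ^ (-(1 - s))) :=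
        mul_le_mul_of_nonneg_right h2 (Real.exp_pos _).le
    _ = Real.exp (1 + (4 + 8 * (∑ p ∈ Ioc t0 t, (p : ℝ) ^ (-(5 / 12) : ℝ)) +
        32 * (Real.log B) ^ (7 / 12 : ℝ) + 4 * ∑ p ∈ Om, h p * (p : ℝ) ^ (-(1 - s)))) := by
        rw [← Real.exp_add]
    _ ≤ _ := Real.exp_le_exp.2 (by linarith)

end Vale.P028.SK
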