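-- RD-BASE a4b9b38b55789292f55bee20c409c22b27c29068
import Vale.Agent.P028.MathlibUsed
import Vale.Agent.P028.RD.H758.XTree
import Vale.Agent.P028.RD.H530.Base
attribute [-instance] ProperSMul.toContinuousSMul IsTopologicalTorsor.toContinuousSMul IdemSemiring.toCanonicallyOrderedAdd IdemSemiring.toMulLeftMono IdemSemiring.toMulRightMono AddQuantale.instAddLeftMono AddQuantale.instAddRightMono Quantale.instMulLeftMono Quantale.instMulRightMono FiniteDimensional.rclike_to_real IsScalarTower.complexToReal FiniteDimensional.complexToReal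

/-!
# Rows and columns of the hybrid words (non-leak pairs whose inner labels differ)

`r` is the new side, `q` the old side, `a = rcof q r`, `b = rcof r q` at stage `i`; the hybrid number
is `r * a / b` (the outer deficits of `r`, everything else of `q`). The part `bB` of `b` at the
unrestricted primes is fixed.
-/

namespace Vale.P028.SK

open Finset CF RN

variable {g : Cfg}

/-- A pair whose inner labels differ only at the primes `≤ y`, at the divisors of `Bd`
(only `v_p r < v_p q`), at the divisors of `aB` (only `v_p r < v_p q`) and of `bB` (only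
`v_p q < v_p r`) with the given exponents, and at deviating primes. -/
structure PP (g : Cfg) (i y Bd aB bB r q : ℕ) : Prop where
  mr : r ∈ g.V
  wr : WW w3 g r ≤ 1 / 4
  mq : q ∈ g.V
  wq : WW w3 g q ≤ 1 / 4
  cl : Clean g (z g i) r q
  al1 : ∀ p : ℕ, p.Prime → y < p → p ≤ N g → p ∣ rcof (z g i) (N g) (kc g r) q r →
    p ∣ Bd ∨ p ∣ aB ∨ (p ≤ z g i ∧ q.factorization p < kc g q p)
  al2 : ∀ p : ℕ, p.Prime → y < p → p ≤ N g → p ∣ rcof (z g i) (N g) (kc g r) r q →
    p ∣ bB ∨ (p ≤ z g i ∧ r.factorization p < kc g r p)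
  aex : ∀ p : ℕ, p.Prime → p ∣ aB →
    (rcof (z g i) (N g) (kc g r) q r).factorization p = aB.factorization p
  bex : ∀ p : ℕ, p.Prime → p ∣ bB →
    (rcof (z g i) (N g) (kc g r) r q).factorization p = bB.factorization p

/-- the weight of a pattern without its fixed part -/
noncomputable def pw (g : Cfg) (i aB bB r q : ℕ) : ℝ :=
  ((rcof (z g i) (N g) (kc g r) q r : ℝ) * (rcof (z g i) (N g) (kc g r) r q : ℝ) /
    ((aB : ℝ) * bB)) ^ (-(5 / 12) : ℝ)

/-! ### The tree lemma for an indexed family -/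

theorem tree_rep {ι : Type*} [DecidableEq ι] (Q : Finset ι) (h : ι → ℕ)
    (hinj : ∀ q ∈ Q, ∀ q' ∈ Q, h q = h q' → q = q') (x : ℕ → ι → ℝ) (e0 : ℕ → ℕ) {t : ℝ}
    (ht : 0 < t) {N' : ℕ} (hN' : ∀ q ∈ Q, h q ∈ Icc 1 N') (hx0 : ∀ p q, 0 ≤ x p q)
    (H1 : ∀ q ∈ Q, ∀ q' ∈ Q, ∀ p : ℕ, p.Prime → SameAbove p (h q) (h q') → x p q = x p q')
    (H2 : ∀ q ∈ Q, ∀ q' ∈ Q, ∀ p : ℕ, p.Prime → SameAbove p (h q) (h q') → x p q = 0 →
      (h q).factorization p = (h q').factorization p)
    (H3 : ∀ q ∈ Q, ∀ p : ℕ, p.Prime → x p q ≠ 0 → 2 / ((p : ℝ) ^ t - 1) ≤ x p q) :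
    ∑ q ∈ Q, (∏ p ∈ prN N', ((p : ℝ) ^ (-t)) ^ ad (e0 p) ((h q).factorization p)) /
      ∏ p ∈ prN N', (1 + x p q) ≤ 1 := by
  classical
  rcases Q.eq_empty_or_nonempty with rfl | ⟨d, hd⟩
  · simp
  set inv : ℕ → ι := fun n => if hn : ∃ q ∈ Q, h q = n then hn.choose else d with hinv
  have hinvh : ∀ q ∈ Q, inv (h q) = q := by
    intro q hq
    have hex : ∃ q' ∈ Q, h q' = h q := ⟨q, hq, rfl⟩
    have e : inv (h q) = hex.choose := by
      rw [hinv]
      exact dif_pos hex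
    rw [e]
    obtain ⟨h1, h2⟩ := hex.choose_spec
    exact hinj _ h1 _ hq h2
  have himg : ∀ n ∈ Q.image h, ∃ q ∈ Q, h q = n ∧ inv n = q := by
    intro n hn
    obtain ⟨q, hq, rfl⟩ := mem_image.1 hn
    exact ⟨q, hq, rfl, hinvh q hq⟩
  have key := tree_exp (N := N') e0 ht (fun p n => x p (inv n)) (fun p n => hx0 p _) (Q.image h)
    (by
      intro n hn
      obtain ⟨q, hq, rfl, -⟩ := himg n hn
      exact hN' q hq)
    (by
      intro n hn n' hn' p hp hs
      obtain ⟨q, hq, rfl, e1⟩ := himg n hn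
      obtain ⟨q', hq', rfl, e2⟩ := himg n' hn'
      show x p (inv (h q)) = x p (inv (h q'))
      rw [e1, e2]
      exact H1 q hq q' hq' p hp hs)
    (by
      intro n hn n' hn' p hp hs hx
      obtain ⟨q, hq, rfl, e1⟩ := himg n hn
      obtain ⟨q', hq', rfl, e2⟩ := himg n' hn'
      rw [e1] at hx
      exact H2 q hq q' hq' p hp hs hx)
    (by
      intro n hn p hp hx
      obtain ⟨q, hq, rfl, e1⟩ := himg n hn
      show 2 / ((p : ℝ) ^ t - 1) ≤ x p (inv (h q))
      rw [e1] at hx ⊢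
      exact H3 q hq p hp hx)
  rw [sum_image (fun q hq q' hq' he => hinj q hq q' hq' he)] at key
  refine le_trans (le_of_eq (sum_congr rfl fun q hq => ?_)) key
  simp only [hinvh q hq]

/-! ### The product of the weights -/

open Classical in
theorem prod_x_le {y B q r : ℕ} (hy : zs g ≤ y) (hWq : WW w3 g q ≤ 1 / 4)
    (hWr : WW w3 g r ≤ 1 / 4) (hB : 0 < B) {zq : ℕ} (N' : ℕ) (x : ℕ → ℝ) (hx0 : ∀ p, 0 ≤ x p)
    (hx : ∀ p, x p ≤ 8 * (p : ℝ) ^ (-(5 / 12) : ℝ))
    (hsup : ∀ p : ℕ, p.Prime → x p ≠ 0 → p ≤ N g ∧ (p ≤ y ∨ p ∣ B ∨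
      (p ≤ zq ∧ q.factorization p ≠ kc g q p) ∨ r.factorization p ≠ kc g r p)) :
    ∏ p ∈ prN N', (1 + x p) ≤ Real.exp (4 + 16 * (y : ℝ) ^ (7 / 12 : ℝ) +
      32 * (Real.log B) ^ (7 / 12 : ℝ)) := by
  have h1 : ∏ p ∈ prN N', (1 + x p) ≤ Real.exp (∑ p ∈ prN N', x p) := by
    rw [Real.exp_sum]
    refine prod_le_prod (fun p _ => by linarith [hx0 p]) fun p _ => ?_
    have := Real.add_one_le_exp (x p)
    linarith
  refine h1.trans (Real.exp_le_exp.2 ?_)
  set D : ℕ → Finset ℕ := fun a => (NT.PzN (zs g) (N g)).filter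
      (fun p => a.factorization p ≠ NT.kk g.V (f g) (thr g) (N g) a p) with hD
  set S1 : Finset ℕ := Icc 1 y with hS1
  set S2 : Finset ℕ := B.primeFactors with hS2
  have hpt : ∀ p ∈ prN N', x p ≤ 8 * ((if p ∈ S1 then (p : ℝ) ^ (-(5 / 12) : ℝ)
      else 0) + (if p ∈ S2 then (p : ℝ) ^ (-(5 / 12) : ℝ) else 0) +
      (if p ∈ D q then (p : ℝ) ^ (-(5 / 12) : ℝ) else 0) +
      (if p ∈ D r then (p : ℝ) ^ (-(5 / 12) : ℝ) else 0)) := by
    intro p hp
    have hpp := (mem_filter.1 hp).2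
    have hw : 0 ≤ (p : ℝ) ^ (-(5 / 12) : ℝ) := by positivity
    have i1 : 0 ≤ (if p ∈ S1 then (p : ℝ) ^ (-(5 / 12) : ℝ) else 0) := by split_ifs <;> simp [hw]
    have i2 : 0 ≤ (if p ∈ S2 then (p : ℝ) ^ (-(5 / 12) : ℝ) else 0) := by split_ifs <;> simp [hw]
    have i3 : 0 ≤ (if p ∈ D q then (p : ℝ) ^ (-(5 / 12) : ℝ) else 0) := by split_ifs <;> simp [hw]
    have i4 : 0 ≤ (if p ∈ D r then (p : ℝ) ^ (-(5 / 12) : ℝ) else 0) := by split_ifs <;> simp [hw]
    have hxle := hx p
    by_cases hx' : x p = 0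
    · rw [hx']
      linarith
    obtain ⟨hpN, hc⟩ := hsup p hpp hx'
    by_cases hyp : p ≤ y
    · rw [if_pos (mem_Icc.2 ⟨hpp.pos, hyp⟩ : p ∈ S1)] at i1 ⊢
      linarith
    have hyp' : y < p := not_le.1 hyp
    have hmem : ∀ a : ℕ, a.factorization p ≠ kc g a p → p ∈ D a := by
      intro a ha
      rw [hD, mem_filter, NT.mem_PzN]
      refine ⟨⟨hpp, by omega, hpN⟩, ?_⟩
      unfold kc NT.kN at ha
      rwa [if_pos hpN] at ha
    rcases hc with h | h | h | h
    · omega
    · rw [if_pos (Nat.mem_primeFactors.2 ⟨hpp, h, hB.ne'⟩ : p ∈ S2)] at i2 ⊢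
      linarith
    · rw [if_pos (hmem q h.2)] at i3 ⊢
      linarith
    · rw [if_pos (hmem r h)] at i4 ⊢
      linarith
  refine (sum_le_sum hpt).trans ?_
  rw [← mul_sum, sum_add_distrib, sum_add_distrib, sum_add_distrib]
  have hsub : ∀ S : Finset ℕ, ∑ p ∈ prN N', (if p ∈ S then (p : ℝ) ^ (-(5 / 12) : ℝ) else 0) ≤
      ∑ p ∈ S, (p : ℝ) ^ (-(5 / 12) : ℝ) := by
    intro S
    rw [← sum_filter]
    exact sum_le_sum_of_subset_of_nonneg (fun p hp => (mem_filter.1 hp).2)
      fun p _ _ => by positivity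
  have hdev : ∀ a : ℕ, WW w3 g a ≤ 1 / 4 → ∑ p ∈ D a, (p : ℝ) ^ (-(5 / 12) : ℝ) ≤ 1 / 4 := by
    intro a ha
    refine le_trans (sum_le_sum fun p hp => ?_) ha
    have h4 : (1 : ℝ) ≤ p := by
      exact_mod_cast (NT.mem_PzN.1 (mem_filter.1 hp).1).1.one_le
    exact Real.rpow_le_rpow_of_exponent_le h4 (by norm_num)
  have e1 := hsub S1
  have e2 := hsub S2
  have e3 := (hsub (D q)).trans (hdev q hWq)
  have e4 := (hsub (D r)).trans (hdev r hWr)
  have e5 : ∑ p ∈ S1, (p : ℝ) ^ (-(5 / 12) : ℝ) ≤ 2 * (y : ℝ) ^ (7 / 12 : ℝ) := by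
    have := sum_Icc_rpow_le (s := 5 / 12) (by norm_num) (by norm_num) y
    rwa [show (1 : ℝ) - 5 / 12 = 7 / 12 by norm_num] at this
  have e6 := sum_primeFactors_le hB
  linarith

/-! ### The row of the new side -/

/-- exponents of a pair -/
theorem PP.fac (hV : g.V ⊆ Icc 1 (N g)) {i y Bd aB bB r q : ℕ} (hz : zs g ≤ z g i)
    (h : PP g i y Bd aB bB r q) {p : ℕ} (hp : p.Prime) :
    (rcof (z g i) (N g) (kc g r) q r).factorization p =
      (if p ≤ z g i then q.factorization p - r.factorization p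
        else q.factorization p - kc g r p) ∧
    (rcof (z g i) (N g) (kc g r) r q).factorization p =
      (if p ≤ z g i then r.factorization p - q.factorization p
        else r.factorization p - kc g r p) := by
  obtain ⟨h1, h2⟩ := rcof_fac hV hz h.mr h.mq h.cl hp
  exact ⟨h2, h1⟩

/-- the hybrid number: the outer deficits of `r`, everything else of `q` -/
noncomputable def hyC (g : Cfg) (i r q : ℕ) : ℕ :=
  r * rcof (z g i) (N g) (kc g r) q r / rcof (z g i) (N g) (kc g r) r q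

theorem PP.hyb_mul (hV : g.V ⊆ Icc 1 (N g)) {i y Bd aB bB r q : ℕ} (hz : zs g ≤ z g i)
    (h : PP g i y Bd aB bB r q) : hyC g i r q * rcof (z g i) (N g) (kc g r) r q =
      r * rcof (z g i) (N g) (kc g r) q r := by
  obtain ⟨h1, -, -, h4, h5⟩ := clean_cofac hV hz h.mr h.mq h.cl
  have h6 : rcof (z g i) (N g) (kc g r) r q ∣ r := by
    refine dvd_trans ?_ (Nat.div_dvd_of_dvd (Nat.gcd_dvd_left r q))
    change _ ∣ cofac r q
    rw [h1]
    exact dvd_mul_left _ _
  unfold hyC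
  exact Nat.div_mul_cancel (dvd_mul_of_dvd_left h6 _)

theorem PP.pos (hV : g.V ⊆ Icc 1 (N g)) {i y Bd aB bB r q : ℕ} (hz : zs g ≤ z g i)
    (h : PP g i y Bd aB bB r q) : 0 < rcof (z g i) (N g) (kc g r) q r ∧
      0 < rcof (z g i) (N g) (kc g r) r q := by
  obtain ⟨-, -, -, h4, h5⟩ := clean_cofac hV hz h.mr h.mq h.cl
  exact ⟨h5, h4⟩

theorem PP.hyb_pos (hV : g.V ⊆ Icc 1 (N g)) {i y Bd aB bB r q : ℕ} (hz : zs g ≤ z g i)
    (h : PP g i y Bd aB bB r q) : 0 < hyC g i r q := by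
  obtain ⟨h1, h2⟩ := h.pos hV hz
  have hr0 := (mem_Icc.1 (hV h.mr)).1
  have h3 := h.hyb_mul hV hz
  rcases Nat.eq_zero_or_pos (hyC g i r q) with h4 | h4
  · rw [h4, zero_mul] at h3
    have : 0 < r * rcof (z g i) (N g) (kc g r) q r := Nat.mul_pos hr0 h1
    omega
  · exact h4

/-- exponents of the hybrid number -/
theorem PP.hyb_fac (hV : g.V ⊆ Icc 1 (N g)) {i y Bd aB bB r q : ℕ} (hz : zs g ≤ z g i)
    (h : PP g i y Bd aB bB r q) {n : ℕ} (hn0 : 0 < n)
    (hn : n * rcof (z g i) (N g) (kc g r) r q = r * rcof (z g i) (N g) (kc g r) q r)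
    {p : ℕ} (hp : p.Prime) :
    n.factorization p + (rcof (z g i) (N g) (kc g r) r q).factorization p =
      r.factorization p + (rcof (z g i) (N g) (kc g r) q r).factorization p ∧
    (p ≤ z g i → n.factorization p = q.factorization p) := by
  obtain ⟨h1, h2⟩ := h.pos hV hz
  have hr0 : 0 < r := (mem_Icc.1 (hV h.mr)).1
  have e1 : (n * rcof (z g i) (N g) (kc g r) r q).factorization p =
      (r * rcof (z g i) (N g) (kc g r) q r).factorization p := by rw [hn]
  rw [Nat.factorization_mul hn0.ne' h2.ne', Nat.factorization_mul hr0.ne' h1.ne',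
    Finsupp.add_apply, Finsupp.add_apply] at e1
  refine ⟨e1, fun hpz => ?_⟩
  obtain ⟨f1, f2⟩ := h.fac hV hz hp
  rw [if_pos hpz] at f1 f2
  omega

theorem fac_zero_of_lt {n : ℕ} (hn : n ≤ N g) {p : ℕ} (hp : N g < p) : n.factorization p = 0 :=
  Nat.factorization_eq_zero_of_lt (by omega)

open Classical in
/-- the weights of the row of `r` -/
noncomputable def xR (g : Cfg) (y Bd aB bB r p q : ℕ) : ℝ :=
  if p ≤ N g ∧ ¬ p ∣ aB ∧ ¬ p ∣ bB then xT g y Bd r p q else 0

theorem xR_nonneg (y Bd aB bB r p q : ℕ) : 0 ≤ xR g y Bd aB bB r p q := by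
  unfold xR
  split_ifs
  · exact xT_nonneg _ _ _ _ _ _
  · exact le_rfl

theorem xT_le (y B q p r : ℕ) : xT g y B q p r ≤ 8 * (p : ℝ) ^ (-(5 / 12) : ℝ) := by
  unfold xT
  split_ifs
  · exact le_rfl
  · positivity

/-- the data at a prime where the weight vanishes -/
theorem PP.xR_zero (hV : g.V ⊆ Icc 1 (N g)) {i y Bd aB bB r q : ℕ} (hz : zs g ≤ z g i)
    (haB : 0 < aB) (hbB : 0 < bB) (h : PP g i y Bd aB bB r q) {p : ℕ} (hp : p.Prime)
    (hx : xR g y Bd aB bB r p q = 0) :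
    (rcof (z g i) (N g) (kc g r) q r).factorization p = aB.factorization p ∧
    (rcof (z g i) (N g) (kc g r) r q).factorization p = bB.factorization p := by
  have hr1 := mem_Icc.1 (hV h.mr)
  have hq1 := mem_Icc.1 (hV h.mq)
  have hco : Nat.Coprime (rcof (z g i) (N g) (kc g r) q r) (rcof (z g i) (N g) (kc g r) r q) :=
    (clean_cofac hV hz h.mr h.mq h.cl).2.2.1.symm
  obtain ⟨h1, h2⟩ := h.pos hV hz
  obtain ⟨f1, f2⟩ := h.fac hV hz hp
  have hz0 : (rcof (z g i) (N g) (kc g r) q r).factorization p = 0 ∨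
      (rcof (z g i) (N g) (kc g r) r q).factorization p = 0 := by
    by_contra hcon
    push Not at hcon
    exact hp.one_lt.ne' (Nat.eq_one_of_dvd_coprimes hco
      (Nat.dvd_of_factorization_pos hcon.1) (Nat.dvd_of_factorization_pos hcon.2))
  by_cases hb : p ∣ bB
  · have e1 := h.bex p hp hb
    have e2 := hp.factorization_pos_of_dvd hbB.ne' hb
    refine ⟨?_, e1⟩
    by_cases hpa : p ∣ aB
    · exact h.aex p hp hpa
    · rw [Nat.factorization_eq_zero_of_not_dvd hpa]
      omega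
  have hb0 : bB.factorization p = 0 := Nat.factorization_eq_zero_of_not_dvd hb
  rw [hb0]
  by_cases hpa : p ∣ aB
  · have e1 := h.aex p hp hpa
    have e2 := hp.factorization_pos_of_dvd haB.ne' hpa
    exact ⟨e1, by omega⟩
  rw [Nat.factorization_eq_zero_of_not_dvd hpa]
  by_cases hpN : p ≤ N g
  swap
  · have a1 := fac_zero_of_lt hr1.2 (not_le.1 hpN)
    have a2 := fac_zero_of_lt hq1.2 (not_le.1 hpN)
    rw [a1, a2] at f1 f2
    constructor
    · rw [f1]; split_ifs <;> omega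
    · rw [f2]; split_ifs <;> omega
  unfold xR at hx
  rw [if_pos ⟨hpN, hpa, hb⟩] at hx
  have hno : ¬ (p ≤ y ∨ p ∣ Bd ∨ r.factorization p ≠ kc g r p ∨ Off g r p q) := by
    intro h'
    unfold xT at hx
    rw [if_pos h'] at hx
    have hp0 : (0 : ℝ) < p := by exact_mod_cast hp.pos
    have : (0 : ℝ) < 8 * (p : ℝ) ^ (-(5 / 12) : ℝ) := by positivity
    linarith
  push Not at hno
  obtain ⟨n1, n2, n3, n4⟩ := hno
  constructor
  · by_contra hne
    rcases h.al1 p hp n1 hpN (Nat.dvd_of_factorization_pos hne) with h3 | h3 | ⟨hpz, h4⟩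
    · exact n2 h3
    · exact hpa h3
    rw [if_pos hpz] at f1
    have hlt : r.factorization p < q.factorization p := by omega
    obtain ⟨hcell, -⟩ := clean_cross hV hz h.mr h.mq h.cl
    have hns : ¬ NT.Split (f g) (thr g) (NT.cell g.V (f g) (thr g) (N g) p q) p := by
      intro hs
      have h6 : kc g q p = q.factorization p := by
        unfold kc NT.kN
        rw [if_pos hpN]
        exact NT.kk_of_split hs
      omega
    have h6 : kc g q p = NT.dom (f g) (NT.cell g.V (f g) (thr g) (N g) p q) p := by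
      unfold kc NT.kN
      rw [if_pos hpN]
      exact NT.kk_of_not_split hns
    by_cases hce : NT.cell g.V (f g) (thr g) (N g) p q = NT.cell g.V (f g) (thr g) (N g) p r
    · have h7 : kc g r p = kc g q p := by
        unfold kc NT.kN
        rw [if_pos hpN, if_pos hpN, NT.kk_of_not_split hns, hce]
        rw [hce] at hns
        exact NT.kk_of_not_split hns
      omega
    · exact n4 ⟨hce, hns, by omega⟩
  · by_contra hne
    rcases h.al2 p hp n1 hpN (Nat.dvd_of_factorization_pos hne) with h3 | ⟨hpz, h4⟩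
    · exact hb h3
    · omega

/-- the weight is supported on small primes, divisors of `Bd` and deviations -/
theorem PP.xR_supp (hV : g.V ⊆ Icc 1 (N g)) {i y Bd aB bB r q : ℕ} (hz : zs g ≤ z g i)
    (h : PP g i y Bd aB bB r q) {p : ℕ} (hp : p.Prime) (hx : xR g y Bd aB bB r p q ≠ 0) :
    p ≤ N g ∧ (p ≤ y ∨ p ∣ Bd ∨ (p ≤ z g i ∧ q.factorization p ≠ kc g q p) ∨
      r.factorization p ≠ kc g r p) := by
  unfold xR at hx
  by_cases hc : p ≤ N g ∧ ¬ p ∣ aB ∧ ¬ p ∣ bB
  swap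
  · rw [if_neg hc] at hx
    exact absurd rfl hx
  obtain ⟨hpN, hpa, hb⟩ := hc
  rw [if_pos ⟨hpN, hpa, hb⟩] at hx
  refine ⟨hpN, ?_⟩
  by_contra hcon
  push Not at hcon
  obtain ⟨c1, c2, c3, c4⟩ := hcon
  apply hx
  unfold xT
  rw [if_neg]
  rintro (h' | h' | h' | h')
  · omega
  · exact c2 h'
  · exact h' c4
  obtain ⟨h1, h2, h3⟩ := h'
  obtain ⟨hcell, -⟩ := clean_cross hV hz h.mr h.mq h.cl
  have hpz : p ≤ z g i := by
    by_contra hlt
    exact h1 (NT.cell_eq (NT.cell_mono (not_le.1 hlt).le r hcell))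
  have h6 : kc g q p = NT.dom (f g) (NT.cell g.V (f g) (thr g) (N g) p q) p := by
    unfold kc NT.kN
    rw [if_pos hpN]
    exact NT.kk_of_not_split h2
  have h7 := c3 hpz
  obtain ⟨f1, -⟩ := h.fac hV hz hp
  rw [if_pos hpz] at f1
  rcases h.al1 p hp c1 hpN (Nat.dvd_of_factorization_pos (by omega)) with h8 | h8 | ⟨-, h8⟩
  · exact c2 h8
  · exact hpa h8
  · omega

/-- the weight of a pattern as a product over the primes -/
theorem PP.pw_eq (hV : g.V ⊆ Icc 1 (N g)) {i y Bd aB bB r q : ℕ} (hz : zs g ≤ z g i)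
    (haB : 0 < aB) (hbB : 0 < bB) (h : PP g i y Bd aB bB r q) {N' : ℕ} (hN' : N g ≤ N')
    (e0 : ℕ → ℕ) (n : ℕ → ℕ) (hdiff : ∀ p : ℕ, p.Prime → ad (e0 p) (n p) =
      ((rcof (z g i) (N g) (kc g r) q r).factorization p - aB.factorization p) +
        ((rcof (z g i) (N g) (kc g r) r q).factorization p - bB.factorization p)) :
    pw g i aB bB r q = ∏ p ∈ prN N', ((p : ℝ) ^ (-(5 / 12) : ℝ)) ^ ad (e0 p) (n p) := by
  have hr1 := mem_Icc.1 (hV h.mr)
  have hq1 := mem_Icc.1 (hV h.mq)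
  obtain ⟨h1, h2⟩ := h.pos hV hz
  obtain ⟨c1, c2, -, -, -⟩ := clean_cofac hV hz h.mr h.mq h.cl
  set a := rcof (z g i) (N g) (kc g r) q r with ha
  set b := rcof (z g i) (N g) (kc g r) r q with hb
  have haN : a ≤ N' := by
    have h6 : a ≤ cofac q r := Nat.le_of_dvd (cofac_pos r hq1.1) (by
      rw [c2]; exact dvd_mul_left _ _)
    exact (h6.trans ((cofac_le r hq1.1).trans hq1.2)).trans hN'
  have hbN : b ≤ N' := by
    have h6 : b ≤ cofac r q := Nat.le_of_dvd (cofac_pos q hr1.1) (by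
      rw [c1]; exact dvd_mul_left _ _)
    exact (h6.trans ((cofac_le q hr1.1).trans hr1.2)).trans hN'
  -- `aB` divides `a`, `bB` divides `b`
  have hdvd : ∀ {x X : ℕ}, 0 < x → 0 < X → (∀ p : ℕ, p.Prime → p ∣ X →
      x.factorization p = X.factorization p) → X ∣ x := by
    intro x X hx hX hxX
    rw [← Nat.factorization_le_iff_dvd hX.ne' hx.ne']
    intro p
    by_cases hp : p.Prime
    · by_cases hpb : p ∣ X
      · rw [hxX p hp hpb]
      · rw [Nat.factorization_eq_zero_of_not_dvd hpb]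
        exact Nat.zero_le _
    · rw [Nat.factorization_eq_zero_of_not_prime _ hp]
      exact Nat.zero_le _
  obtain ⟨c, hc⟩ := hdvd h2 hbB h.bex
  obtain ⟨d, hd⟩ := hdvd h1 haB h.aex
  have hc0 : 0 < c := by
    rcases Nat.eq_zero_or_pos c with h3 | h3
    · rw [h3, mul_zero] at hc
      omega
    · exact h3
  have hd0 : 0 < d := by
    rcases Nat.eq_zero_or_pos d with h3 | h3
    · rw [h3, mul_zero] at hd
      omega
    · exact h3
  have hcN : c ≤ N' := (Nat.le_of_dvd h2 ⟨bB, by rw [hc, mul_comm]⟩).trans hbN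
  have hdN : d ≤ N' := (Nat.le_of_dvd h1 ⟨aB, by rw [hd, mul_comm]⟩).trans haN
  have haBR : (aB : ℝ) ≠ 0 := by exact_mod_cast haB.ne'
  have hbBR : (bB : ℝ) ≠ 0 := by exact_mod_cast hbB.ne'
  have e1 : ((a : ℝ) * (b : ℝ) / ((aB : ℝ) * bB)) = ((d * c : ℕ) : ℝ) := by
    rw [hc, hd]
    push_cast
    field_simp
  have hprod : d * c = ∏ p ∈ prN N', p ^ ad (e0 p) (n p) := by
    rw [← xc1_prod hd0 hdN, ← xc1_prod hc0 hcN, ← prod_mul_distrib]
    refine prod_congr rfl fun p hp => ?_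
    rw [← pow_add]
    congr 1
    have hpp := (mem_filter.1 hp).2
    rw [hdiff p hpp, hc, hd, Nat.factorization_mul hbB.ne' hc0.ne', Finsupp.add_apply,
      Nat.factorization_mul haB.ne' hd0.ne', Finsupp.add_apply]
    omega
  unfold pw
  rw [← ha, ← hb, e1, hprod]
  push_cast
  rw [← Real.finsetProd_rpow _ _ (fun p _ => by positivity)]
  refine prod_congr rfl fun p _ => ?_
  rw [← Real.rpow_natCast, ← Real.rpow_natCast, ← Real.rpow_mul (Nat.cast_nonneg _),
    ← Real.rpow_mul (Nat.cast_nonneg _)]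
  congr 1
  ring

open Classical in
theorem xR_congr {y Bd aB bB r p q q' : ℕ}
    (h : NT.cell g.V (f g) (thr g) (N g) p q = NT.cell g.V (f g) (thr g) (N g) p q') :
    xR g y Bd aB bB r p q = xR g y Bd aB bB r p q' := by
  have h2 : Off g r p q ↔ Off g r p q' := by
    unfold Off
    rw [h]
  unfold xR
  by_cases hc : p ≤ N g ∧ ¬ p ∣ aB ∧ ¬ p ∣ bB
  · rw [if_pos hc, if_pos hc]
    unfold xT
    exact if_congr (or_congr Iff.rfl (or_congr Iff.rfl (or_congr Iff.rfl h2))) rfl rfl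
  · rw [if_neg hc, if_neg hc]

theorem xR_H3 {y Bd aB bB r p q : ℕ} (hp : p.Prime) (hx : xR g y Bd aB bB r p q ≠ 0) :
    2 / ((p : ℝ) ^ (5 / 12 : ℝ) - 1) ≤ xR g y Bd aB bB r p q := by
  unfold xR at hx ⊢
  split_ifs at hx ⊢ with h
  · exact xT_H3 hp hx
  · exact absurd rfl hx

theorem xR_le (y Bd aB bB r p q : ℕ) : xR g y Bd aB bB r p q ≤ 8 * (p : ℝ) ^ (-(5 / 12) : ℝ) := by
  unfold xR
  split_ifs
  · exact xT_le _ _ _ _ _
  · positivity

/-- **Row of the new side** -/
theorem row_hyb (hV : g.V ⊆ Icc 1 (N g)) {i y Bd aB bB r : ℕ} (hz : zs g ≤ z g i) (hy : zs g ≤ y)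
    (hBd : 0 < Bd) (haB : 0 < aB) (hbB : 0 < bB) {Q : Finset ℕ} (hQ : ∀ q ∈ Q, PP g i y Bd aB bB r q)
    (hinj : ∀ q ∈ Q, ∀ q' ∈ Q,
      rcof (z g i) (N g) (kc g r) q r = rcof (z g i) (N g) (kc g r) q' r →
      rcof (z g i) (N g) (kc g r) r q = rcof (z g i) (N g) (kc g r) r q' → q = q') :
    ∑ q ∈ Q, pw g i aB bB r q ≤
      Real.exp (4 + 16 * (y : ℝ) ^ (7 / 12 : ℝ) + 32 * (Real.log Bd) ^ (7 / 12 : ℝ)) := by
  classical
  set Y := Real.exp (4 + 16 * (y : ℝ) ^ (7 / 12 : ℝ) + 32 * (Real.log Bd) ^ (7 / 12 : ℝ)) with hYd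
  have hY0 : 0 < Y := Real.exp_pos _
  rcases Q.eq_empty_or_nonempty with rfl | ⟨d, hd⟩
  · rw [sum_empty]; exact hY0.le
  have hrV := (hQ d hd).mr
  have hr1 := mem_Icc.1 (hV hrV)
  have hN1 : 1 ≤ N g := hr1.1.trans hr1.2
  set N' := N g * N g with hN'
  have hNN : N g ≤ N' := Nat.le_mul_self _
  set n : ℕ → ℕ := fun q => hyC g i r q with hn
  set e0 : ℕ → ℕ := fun p => r.factorization p + aB.factorization p - bB.factorization p with he0
  have hnpos : ∀ q ∈ Q, 0 < n q := fun q hq => (hQ q hq).hyb_pos hV hz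
  have hnm : ∀ q ∈ Q, n q * rcof (z g i) (N g) (kc g r) r q =
      r * rcof (z g i) (N g) (kc g r) q r := fun q hq => (hQ q hq).hyb_mul hV hz
  have hnle : ∀ q ∈ Q, n q ≤ N' := by
    intro q hq
    have h := hQ q hq
    obtain ⟨h1, h2⟩ := h.pos hV hz
    have hq1 := mem_Icc.1 (hV h.mq)
    obtain ⟨-, c2, -, -, -⟩ := clean_cofac hV hz h.mr h.mq h.cl
    have haN : rcof (z g i) (N g) (kc g r) q r ≤ N g := by
      have h6 : rcof (z g i) (N g) (kc g r) q r ≤ cofac q r :=
        Nat.le_of_dvd (cofac_pos r hq1.1) (by rw [c2]; exact dvd_mul_left _ _)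
      exact h6.trans ((cofac_le r hq1.1).trans hq1.2)
    calc n q ≤ n q * rcof (z g i) (N g) (kc g r) r q := Nat.le_mul_of_pos_right _ h2
      _ = r * rcof (z g i) (N g) (kc g r) q r := hnm q hq
      _ ≤ N g * N g := Nat.mul_le_mul hr1.2 haN
  -- exponents
  have hcop : ∀ q ∈ Q, ∀ p : ℕ, p.Prime →
      (rcof (z g i) (N g) (kc g r) q r).factorization p = 0 ∨
        (rcof (z g i) (N g) (kc g r) r q).factorization p = 0 := by
    intro q hq p hp
    have h := hQ q hq
    have hco : Nat.Coprime (rcof (z g i) (N g) (kc g r) q r)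
        (rcof (z g i) (N g) (kc g r) r q) :=
      (clean_cofac hV hz h.mr h.mq h.cl).2.2.1.symm
    by_contra hcon
    push Not at hcon
    exact hp.one_lt.ne' (Nat.eq_one_of_dvd_coprimes hco
      (Nat.dvd_of_factorization_pos hcon.1) (Nat.dvd_of_factorization_pos hcon.2))
  have hble : ∀ q ∈ Q, ∀ p : ℕ, p.Prime →
      (rcof (z g i) (N g) (kc g r) r q).factorization p ≤ r.factorization p := by
    intro q hq p hp
    obtain ⟨-, f2⟩ := (hQ q hq).fac hV hz hp
    rw [f2]
    split_ifs <;> omega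
  have hfe : ∀ q ∈ Q, ∀ p : ℕ, p.Prime → (n q).factorization p +
      (rcof (z g i) (N g) (kc g r) r q).factorization p =
      r.factorization p + (rcof (z g i) (N g) (kc g r) q r).factorization p := fun q hq p hp =>
    ((hQ q hq).hyb_fac hV hz (hnpos q hq) (hnm q hq) hp).1
  have hbex : ∀ q ∈ Q, ∀ p : ℕ, p.Prime → p ∣ bB →
      (rcof (z g i) (N g) (kc g r) r q).factorization p = bB.factorization p :=
    fun q hq p hp => (hQ q hq).bex p hp
  have haex : ∀ q ∈ Q, ∀ p : ℕ, p.Prime → p ∣ aB →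
      (rcof (z g i) (N g) (kc g r) q r).factorization p = aB.factorization p :=
    fun q hq p hp => (hQ q hq).aex p hp
  have hdiff : ∀ q ∈ Q, ∀ p : ℕ, p.Prime → ad (e0 p) ((n q).factorization p) =
      ((rcof (z g i) (N g) (kc g r) q r).factorization p - aB.factorization p) +
        ((rcof (z g i) (N g) (kc g r) r q).factorization p - bB.factorization p) := by
    intro q hq p hp
    have a1 := hfe q hq p hp
    have a2 := hcop q hq p hp
    have a3 := hble q hq p hp
    have a6 : aB.factorization p = 0 ∨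
        (rcof (z g i) (N g) (kc g r) q r).factorization p = aB.factorization p := by
      by_cases hpa : p ∣ aB
      · exact Or.inr (haex q hq p hp hpa)
      · exact Or.inl (Nat.factorization_eq_zero_of_not_dvd hpa)
    have a7 : bB.factorization p = 0 ∨
        (rcof (z g i) (N g) (kc g r) r q).factorization p = bB.factorization p := by
      by_cases hb : p ∣ bB
      · exact Or.inr (hbex q hq p hp hb)
      · exact Or.inl (Nat.factorization_eq_zero_of_not_dvd hb)
    simp only [he0, ad]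
    omega
  have key := tree_rep Q n (fun q hq q' hq' he => ?_) (fun p q => xR g y Bd aB bB r p q) e0
    (t := 5 / 12) (by norm_num) (N' := N') (fun q hq => mem_Icc.2 ⟨hnpos q hq, hnle q hq⟩)
    (fun p q => xR_nonneg _ _ _ _ _ _ _) ?_ ?_ (fun q _ p hp hx => xR_H3 hp hx)
  · -- the sum
    have h2 : ∀ q ∈ Q, pw g i aB bB r q ≤ Y * ((∏ p ∈ prN N', ((p : ℝ) ^ (-(5 / 12) : ℝ)) ^
        ad (e0 p) ((n q).factorization p)) / ∏ p ∈ prN N', (1 + xR g y Bd aB bB r p q)) := by
      intro q hq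
      have h := hQ q hq
      have h3 := prod_x_le (zq := z g i) hy h.wq h.wr hBd N' (fun p => xR g y Bd aB bB r p q)
        (fun p => xR_nonneg _ _ _ _ _ _ _) (fun p => xR_le _ _ _ _ _ _ _)
        (fun p hp hx => h.xR_supp hV hz hp hx)
      rw [h.pw_eq hV hz haB hbB hNN e0 (fun p => (n q).factorization p)
        (fun p hp => hdiff q hq p hp)]
      set A := ∏ p ∈ prN N', ((p : ℝ) ^ (-(5 / 12) : ℝ)) ^
        ad (e0 p) ((n q).factorization p) with hA
      have hA0 : 0 ≤ A := prod_nonneg fun p _ => by positivity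
      have hP0 : 0 < ∏ p ∈ prN N', (1 + xR g y Bd aB bB r p q) :=
        prod_pos fun p _ => by linarith [xR_nonneg (g := g) y Bd aB bB r p q]
      rw [mul_div_assoc', le_div_iff₀ hP0, mul_comm Y]
      exact mul_le_mul_of_nonneg_left h3 hA0
    refine (sum_le_sum h2).trans ?_
    rw [← mul_sum]
    calc Y * _ ≤ Y * 1 := mul_le_mul_of_nonneg_left key hY0.le
      _ = Y := mul_one Y
  · -- injectivity
    have hall : ∀ p : ℕ, (rcof (z g i) (N g) (kc g r) q r).factorization p =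
        (rcof (z g i) (N g) (kc g r) q' r).factorization p ∧
        (rcof (z g i) (N g) (kc g r) r q).factorization p =
        (rcof (z g i) (N g) (kc g r) r q').factorization p := by
      intro p
      by_cases hp : p.Prime
      · have a1 := hfe q hq p hp
        have a2 := hfe q' hq' p hp
        have a3 := hcop q hq p hp
        have a4 := hcop q' hq' p hp
        have a5 : (n q).factorization p = (n q').factorization p := by rw [he]
        omega
      · simp [Nat.factorization_eq_zero_of_not_prime _ hp]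
    obtain ⟨p1, p2⟩ := (hQ q hq).pos hV hz
    obtain ⟨p3, p4⟩ := (hQ q' hq').pos hV hz
    exact hinj q hq q' hq'
      (Nat.eq_of_factorization_eq p1.ne' p3.ne' fun p => (hall p).1)
      (Nat.eq_of_factorization_eq p2.ne' p4.ne' fun p => (hall p).2)
  · -- (H1)
    intro q hq q' hq' p hp hs
    apply xR_congr
    have h := hQ q hq
    have h' := hQ q' hq'
    have c1 := (clean_cross hV hz h.mr h.mq h.cl).1
    have c2 := (clean_cross hV hz h'.mr h'.mq h'.cl).1
    rcases le_or_gt (z g i) p with hpz | hpz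
    · rw [NT.cell_eq (NT.cell_mono hpz r c1), NT.cell_eq (NT.cell_mono hpz r c2)]
    · have h3 : q' ∈ NT.cell g.V (f g) (thr g) (N g) (z g i) q := by
        rw [NT.cell_eq c1]; exact c2
      have h4 : q' ∈ NT.cell g.V (f g) (thr g) (N g) p q := by
        refine cell_down h'.mq h3 (fun p' hp' hlt hle => ?_) hpz.le
        have a1 := (h.hyb_fac hV hz (hnpos q hq) (hnm q hq) hp').2 hle
        have a2 := (h'.hyb_fac hV hz (hnpos q' hq') (hnm q' hq') hp').2 hle
        have a3 := hs p' hlt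
        rw [← a1, ← a2]
        exact a3.symm
      exact (NT.cell_eq h4).symm
  · -- (H2)
    intro q hq q' hq' p hp hs hx
    have h := hQ q hq
    have h' := hQ q' hq'
    have c1 := (clean_cross hV hz h.mr h.mq h.cl).1
    have c2 := (clean_cross hV hz h'.mr h'.mq h'.cl).1
    have hcell : NT.cell g.V (f g) (thr g) (N g) p q = NT.cell g.V (f g) (thr g) (N g) p q' := by
      rcases le_or_gt (z g i) p with hpz | hpz
      · rw [NT.cell_eq (NT.cell_mono hpz r c1), NT.cell_eq (NT.cell_mono hpz r c2)]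
      · have h3 : q' ∈ NT.cell g.V (f g) (thr g) (N g) (z g i) q := by
          rw [NT.cell_eq c1]; exact c2
        have h4 : q' ∈ NT.cell g.V (f g) (thr g) (N g) p q := by
          refine cell_down h'.mq h3 (fun p' hp' hlt hle => ?_) hpz.le
          have a1 := (h.hyb_fac hV hz (hnpos q hq) (hnm q hq) hp').2 hle
          have a2 := (h'.hyb_fac hV hz (hnpos q' hq') (hnm q' hq') hp').2 hle
          have a3 := hs p' hlt
          rw [← a1, ← a2]
          exact a3.symm
        exact (NT.cell_eq h4).symm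
    have hx' : xR g y Bd aB bB r p q' = 0 := by
      rw [← xR_congr hcell]; exact hx
    obtain ⟨z1, z2⟩ := h.xR_zero hV hz haB hbB hp hx
    obtain ⟨z3, z4⟩ := h'.xR_zero hV hz haB hbB hp hx'
    have a1 := hfe q hq p hp
    have a2 := hfe q' hq' p hp
    show (n q).factorization p = (n q').factorization p
    omega

/-! ### The column of a hybrid number -/

/-- the data of a column: the new sides `r ∈ R` at their stages `st r` with the partners `pq r` -/
structure ColD (g : Cfg) (y Bd aB bB n : ℕ) (R : Finset ℕ) (st pq : ℕ → ℕ) : Prop where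
  hz : ∀ r ∈ R, zs g ≤ z g (st r)
  pp : ∀ r ∈ R, PP g (st r) y Bd aB bB r (pq r)
  hn : ∀ r ∈ R, n * rcof (z g (st r)) (N g) (kc g r) r (pq r) =
    r * rcof (z g (st r)) (N g) (kc g r) (pq r) r

variable {y Bd aB bB n : ℕ} {R : Finset ℕ} {st pq : ℕ → ℕ}

theorem ColD.npos (hV : g.V ⊆ Icc 1 (N g)) (C : ColD g y Bd aB bB n R st pq) {r : ℕ} (hr : r ∈ R) :
    0 < n := by
  have h := C.pp r hr
  obtain ⟨h1, h2⟩ := h.pos hV (C.hz r hr)
  have hr0 : 0 < r := (mem_Icc.1 (hV h.mr)).1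
  have h3 := C.hn r hr
  rcases Nat.eq_zero_or_pos n with h4 | h4
  · rw [h4, zero_mul] at h3
    have : 0 < r * rcof (z g (st r)) (N g) (kc g r) (pq r) r := Nat.mul_pos hr0 h1
    omega
  · exact h4

theorem ColD.fac (hV : g.V ⊆ Icc 1 (N g)) (C : ColD g y Bd aB bB n R st pq) {r : ℕ} (hr : r ∈ R)
    {p : ℕ} (hp : p.Prime) :
    n.factorization p + (rcof (z g (st r)) (N g) (kc g r) r (pq r)).factorization p =
      r.factorization p + (rcof (z g (st r)) (N g) (kc g r) (pq r) r).factorization p ∧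
    (p ≤ z g (st r) → n.factorization p = (pq r).factorization p) :=
  (C.pp r hr).hyb_fac hV (C.hz r hr) (C.npos hV hr) (C.hn r hr) hp

/-- at a split prime of its own clean range the exponent of `r` is that of `n` -/
theorem ColD.split_fac (hV : g.V ⊆ Icc 1 (N g)) (C : ColD g y Bd aB bB n R st pq) {r : ℕ}
    (hr : r ∈ R) {p : ℕ} (hp : p.Prime) (hzp : z g (st r) < p) (hpN : p ≤ N g)
    (hs : NT.Split (f g) (thr g) (NT.cell g.V (f g) (thr g) (N g) p r) p) :
    n.factorization p = r.factorization p ∧ (pq r).factorization p = r.factorization p := by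
  have h := C.pp r hr
  have hz := C.hz r hr
  have h6 : kc g r p = r.factorization p := by
    unfold kc NT.kN
    rw [if_pos hpN]
    exact NT.kk_of_split hs
  obtain ⟨f1, f2⟩ := h.fac hV hz hp
  rw [if_neg (not_le.2 hzp), h6] at f1 f2
  have hcell := (clean_cross hV hz h.mr h.mq h.cl).1
  have h1 : pq r ∈ NT.cell g.V (f g) (thr g) (N g) (p - 1) r :=
    NT.cell_mono (by omega) r hcell
  rw [NT.cell_split hp.pos hpN hs, mem_filter] at h1
  have h2 := h1.2
  have h3 := (C.fac hV hr hp).1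
  rw [f1, f2, h2] at h3
  exact ⟨by omega, h2⟩

/-- the new sides are in one cell above their clean ranges -/
theorem ColD.cell_rr (hV : g.V ⊆ Icc 1 (N g)) (C : ColD g y Bd aB bB n R st pq) {r r' : ℕ}
    (hr : r ∈ R) (hr' : r' ∈ R) {m : ℕ} (hm : z g (st r) ≤ m) (hm' : z g (st r') ≤ m) :
    r' ∈ NT.cell g.V (f g) (thr g) (N g) m r := by
  by_contra hcon
  obtain ⟨p, hp, hmp, hpN, hc, hs, hne⟩ := NT.exists_sep (C.pp r' hr').mr hcon
  have h1 := (C.split_fac hV hr hp (by omega) hpN hs).1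
  have hs' : NT.Split (f g) (thr g) (NT.cell g.V (f g) (thr g) (N g) p r') p := by
    rw [NT.cell_eq hc]; exact hs
  have h2 := (C.split_fac hV hr' hp (by omega) hpN hs').1
  omega

/-- the central partner is in the cell of `r` above the clean range of `r` -/
theorem ColD.cell_rq (hV : g.V ⊆ Icc 1 (N g)) (C : ColD g y Bd aB bB n R st pq) {r r0 : ℕ}
    (hr : r ∈ R) (hr0 : r0 ∈ R) (hmax : z g (st r) ≤ z g (st r0)) {m : ℕ}
    (hm : z g (st r) ≤ m) : pq r0 ∈ NT.cell g.V (f g) (thr g) (N g) m r := by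
  by_contra hcon
  obtain ⟨p, hp, hmp, hpN, hc, hs, hne⟩ := NT.exists_sep (C.pp r0 hr0).mq hcon
  have h1 := (C.split_fac hV hr hp (by omega) hpN hs).1
  rcases le_or_gt p (z g (st r0)) with hpz | hpz
  · have h2 := (C.fac hV hr0 hp).2 hpz
    omega
  · have h3 := C.cell_rr hV hr hr0 (m := p) (by omega) hpz.le
    have hs' : NT.Split (f g) (thr g) (NT.cell g.V (f g) (thr g) (N g) p r0) p := by
      rw [NT.cell_eq h3]; exact hs
    obtain ⟨h4, h5⟩ := C.split_fac hV hr0 hp hpz hpN hs'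
    omega

/-- below the clean range the cells of the partner and of the central partner agree -/
theorem ColD.cell_qq (hV : g.V ⊆ Icc 1 (N g)) (C : ColD g y Bd aB bB n R st pq) {r r0 : ℕ}
    (hr : r ∈ R) (hr0 : r0 ∈ R) (hmax : z g (st r) ≤ z g (st r0)) {p : ℕ}
    (hp : p ≤ z g (st r)) : NT.cell g.V (f g) (thr g) (N g) p (pq r) =
      NT.cell g.V (f g) (thr g) (N g) p (pq r0) := by
  have h := C.pp r hr
  have hcell := (clean_cross hV (C.hz r hr) h.mr h.mq h.cl).1
  have h2 := C.cell_rq hV hr hr0 hmax (m := z g (st r)) le_rfl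
  have h3 : pq r0 ∈ NT.cell g.V (f g) (thr g) (N g) (z g (st r)) (pq r) := by
    rw [NT.cell_eq hcell]; exact h2
  have h4 : pq r0 ∈ NT.cell g.V (f g) (thr g) (N g) p (pq r) := by
    refine cell_down (C.pp r0 hr0).mq h3 (fun p' hp' hlt hle => ?_) hp
    have a1 := (C.fac hV hr hp').2 hle
    have a2 := (C.fac hV hr0 hp').2 (hle.trans hmax)
    omega
  exact (NT.cell_eq h4).symm

/-- the data at a prime where the weight vanishes -/
theorem ColD.xR_zero (hV : g.V ⊆ Icc 1 (N g)) (haB : 0 < aB) (hbB : 0 < bB) (C : ColD g y Bd aB bB n R st pq)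
    {r r0 : ℕ} (hr : r ∈ R) (hr0 : r0 ∈ R) (hmax : z g (st r) ≤ z g (st r0)) {p : ℕ}
    (hp : p.Prime) (hx : xR g y Bd aB bB (pq r0) p r = 0) :
    (rcof (z g (st r)) (N g) (kc g r) (pq r) r).factorization p = aB.factorization p ∧
    (rcof (z g (st r)) (N g) (kc g r) r (pq r)).factorization p = bB.factorization p := by
  have h := C.pp r hr
  have hz := C.hz r hr
  have hr1 := mem_Icc.1 (hV h.mr)
  have hq1 := mem_Icc.1 (hV h.mq)
  have hco : Nat.Coprime (rcof (z g (st r)) (N g) (kc g r) (pq r) r)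
      (rcof (z g (st r)) (N g) (kc g r) r (pq r)) :=
    (clean_cofac hV hz h.mr h.mq h.cl).2.2.1.symm
  obtain ⟨h1, h2⟩ := h.pos hV hz
  obtain ⟨f1, f2⟩ := h.fac hV hz hp
  have hz0 : (rcof (z g (st r)) (N g) (kc g r) (pq r) r).factorization p = 0 ∨
      (rcof (z g (st r)) (N g) (kc g r) r (pq r)).factorization p = 0 := by
    by_contra hcon
    push Not at hcon
    exact hp.one_lt.ne' (Nat.eq_one_of_dvd_coprimes hco
      (Nat.dvd_of_factorization_pos hcon.1) (Nat.dvd_of_factorization_pos hcon.2))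
  by_cases hb : p ∣ bB
  · have e1 := h.bex p hp hb
    have e2 := hp.factorization_pos_of_dvd hbB.ne' hb
    refine ⟨?_, e1⟩
    by_cases hpa : p ∣ aB
    · exact h.aex p hp hpa
    · rw [Nat.factorization_eq_zero_of_not_dvd hpa]
      omega
  have hb0 : bB.factorization p = 0 := Nat.factorization_eq_zero_of_not_dvd hb
  rw [hb0]
  by_cases hpa : p ∣ aB
  · have e1 := h.aex p hp hpa
    have e2 := hp.factorization_pos_of_dvd haB.ne' hpa
    exact ⟨e1, by omega⟩
  rw [Nat.factorization_eq_zero_of_not_dvd hpa]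
  by_cases hpN : p ≤ N g
  swap
  · have a1 := fac_zero_of_lt hr1.2 (not_le.1 hpN)
    have a2 := fac_zero_of_lt hq1.2 (not_le.1 hpN)
    rw [a1, a2] at f1 f2
    constructor
    · rw [f1]; split_ifs <;> omega
    · rw [f2]; split_ifs <;> omega
  unfold xR at hx
  rw [if_pos ⟨hpN, hpa, hb⟩] at hx
  have hno : ¬ (p ≤ y ∨ p ∣ Bd ∨ (pq r0).factorization p ≠ kc g (pq r0) p ∨
      Off g (pq r0) p r) := by
    intro h'
    unfold xT at hx
    rw [if_pos h'] at hx
    have hp0 : (0 : ℝ) < p := by exact_mod_cast hp.pos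
    have : (0 : ℝ) < 8 * (p : ℝ) ^ (-(5 / 12) : ℝ) := by positivity
    linarith
  push Not at hno
  obtain ⟨n1, n2, n3, n4⟩ := hno
  constructor
  · by_contra hne
    rcases h.al1 p hp n1 hpN (Nat.dvd_of_factorization_pos hne) with h3 | h3 | ⟨hpz, h4⟩
    · exact n2 h3
    · exact hpa h3
    have hns : ¬ NT.Split (f g) (thr g) (NT.cell g.V (f g) (thr g) (N g) p (pq r)) p := by
      intro hs
      have h6 : kc g (pq r) p = (pq r).factorization p := by
        unfold kc NT.kN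
        rw [if_pos hpN]
        exact NT.kk_of_split hs
      omega
    have hce := C.cell_qq hV hr hr0 hmax hpz
    have h7 : kc g (pq r0) p = kc g (pq r) p := by
      unfold kc NT.kN
      rw [if_pos hpN, if_pos hpN, NT.kk_of_not_split hns, hce]
      rw [hce] at hns
      exact NT.kk_of_not_split hns
    have a1 := (C.fac hV hr hp).2 hpz
    have a2 := (C.fac hV hr0 hp).2 (hpz.trans hmax)
    omega
  · by_contra hne
    rcases h.al2 p hp n1 hpN (Nat.dvd_of_factorization_pos hne) with h3 | ⟨hpz, h4⟩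
    · exact hb h3
    rw [if_pos hpz] at f2
    have a1 := (C.fac hV hr hp).2 hpz
    have a2 := (C.fac hV hr0 hp).2 (hpz.trans hmax)
    have hns : ¬ NT.Split (f g) (thr g) (NT.cell g.V (f g) (thr g) (N g) p r) p := by
      intro hs
      have h6 : kc g r p = r.factorization p := by
        unfold kc NT.kN
        rw [if_pos hpN]
        exact NT.kk_of_split hs
      omega
    have h6 : kc g r p = NT.dom (f g) (NT.cell g.V (f g) (thr g) (N g) p r) p := by
      unfold kc NT.kN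
      rw [if_pos hpN]
      exact NT.kk_of_not_split hns
    by_cases hce : NT.cell g.V (f g) (thr g) (N g) p r =
        NT.cell g.V (f g) (thr g) (N g) p (pq r0)
    · have h7 : kc g (pq r0) p = kc g r p := by
        unfold kc NT.kN
        rw [if_pos hpN, if_pos hpN, NT.kk_of_not_split hns, hce]
        rw [hce] at hns
        exact NT.kk_of_not_split hns
      omega
    · exact n4 ⟨hce, hns, by omega⟩

/-- the weight is supported on small primes, divisors of `Bd` and deviations -/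
theorem ColD.xR_supp (hV : g.V ⊆ Icc 1 (N g)) (C : ColD g y Bd aB bB n R st pq)
    {r r0 : ℕ} (hr : r ∈ R) (hr0 : r0 ∈ R) (hmax : z g (st r) ≤ z g (st r0)) {p : ℕ}
    (hp : p.Prime) (hx : xR g y Bd aB bB (pq r0) p r ≠ 0) :
    p ≤ N g ∧ (p ≤ y ∨ p ∣ Bd ∨ (p ≤ N g ∧ r.factorization p ≠ kc g r p) ∨
      (pq r0).factorization p ≠ kc g (pq r0) p) := by
  have h := C.pp r hr
  have hz := C.hz r hr
  unfold xR at hx
  by_cases hc : p ≤ N g ∧ ¬ p ∣ aB ∧ ¬ p ∣ bB
  swap
  · rw [if_neg hc] at hx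
    exact absurd rfl hx
  obtain ⟨hpN, hpa, hb⟩ := hc
  rw [if_pos ⟨hpN, hpa, hb⟩] at hx
  refine ⟨hpN, ?_⟩
  by_contra hcon
  push Not at hcon
  obtain ⟨c1, c2, c3, c4⟩ := hcon
  apply hx
  unfold xT
  rw [if_neg]
  rintro (h' | h' | h' | h')
  · omega
  · exact c2 h'
  · exact h' c4
  obtain ⟨h1, h2, h3⟩ := h'
  have hpz : p ≤ z g (st r) := by
    by_contra hlt
    have h4 := C.cell_rq hV hr hr0 hmax (m := p) (not_le.1 hlt).le
    exact h1 (NT.cell_eq h4).symm
  have h6 : kc g r p = NT.dom (f g) (NT.cell g.V (f g) (thr g) (N g) p r) p := by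
    unfold kc NT.kN
    rw [if_pos hpN]
    exact NT.kk_of_not_split h2
  have h7 := c3 hpN
  obtain ⟨-, f2⟩ := h.fac hV hz hp
  rw [if_pos hpz] at f2
  have a1 := (C.fac hV hr hp).2 hpz
  have a2 := (C.fac hV hr0 hp).2 (hpz.trans hmax)
  rcases h.al2 p hp c1 hpN (Nat.dvd_of_factorization_pos (by omega)) with h8 | ⟨-, h8⟩
  · exact hb h8
  · omega

/-- **Column of the hybrid number `n`** -/
theorem ColD.col_hyb (hV : g.V ⊆ Icc 1 (N g)) (C : ColD g y Bd aB bB n R st pq) (hy : zs g ≤ y)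
    (hBd : 0 < Bd) (haB : 0 < aB) (hbB : 0 < bB) :
    ∑ r ∈ R, pw g (st r) aB bB r (pq r) ≤
      Real.exp (4 + 16 * (y : ℝ) ^ (7 / 12 : ℝ) + 32 * (Real.log Bd) ^ (7 / 12 : ℝ)) := by
  classical
  set Y := Real.exp (4 + 16 * (y : ℝ) ^ (7 / 12 : ℝ) + 32 * (Real.log Bd) ^ (7 / 12 : ℝ)) with hYd
  have hY0 : 0 < Y := Real.exp_pos _
  rcases R.eq_empty_or_nonempty with hR | hR
  · rw [hR, sum_empty]; exact hY0.le
  obtain ⟨r0, hr0, hmax⟩ := exists_max_image R (fun r => z g (st r)) hR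
  set e0 : ℕ → ℕ := fun p => n.factorization p + bB.factorization p - aB.factorization p with he0
  have hq0 := (C.pp r0 hr0).mq
  have hdiff : ∀ r ∈ R, ∀ p : ℕ, p.Prime → ad (e0 p) (r.factorization p) =
      ((rcof (z g (st r)) (N g) (kc g r) (pq r) r).factorization p - aB.factorization p) +
        ((rcof (z g (st r)) (N g) (kc g r) r (pq r)).factorization p - bB.factorization p) := by
    intro r hr p hp
    have h := C.pp r hr
    have a1 := (C.fac hV hr hp).1
    have hco : Nat.Coprime (rcof (z g (st r)) (N g) (kc g r) (pq r) r)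
        (rcof (z g (st r)) (N g) (kc g r) r (pq r)) :=
      (clean_cofac hV (C.hz r hr) h.mr h.mq h.cl).2.2.1.symm
    have a2 : (rcof (z g (st r)) (N g) (kc g r) (pq r) r).factorization p = 0 ∨
        (rcof (z g (st r)) (N g) (kc g r) r (pq r)).factorization p = 0 := by
      by_contra hcon
      push Not at hcon
      exact hp.one_lt.ne' (Nat.eq_one_of_dvd_coprimes hco
        (Nat.dvd_of_factorization_pos hcon.1) (Nat.dvd_of_factorization_pos hcon.2))
    have a8 : (rcof (z g (st r)) (N g) (kc g r) (pq r) r).factorization p ≤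
        n.factorization p := by
      obtain ⟨f1, f2⟩ := h.fac hV (C.hz r hr) hp
      rcases a2 with a9 | a9
      · omega
      · omega
    have a6 : aB.factorization p = 0 ∨
        (rcof (z g (st r)) (N g) (kc g r) (pq r) r).factorization p = aB.factorization p := by
      by_cases hpa : p ∣ aB
      · exact Or.inr (h.aex p hp hpa)
      · exact Or.inl (Nat.factorization_eq_zero_of_not_dvd hpa)
    have a7 : bB.factorization p = 0 ∨
        (rcof (z g (st r)) (N g) (kc g r) r (pq r)).factorization p = bB.factorization p := by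
      by_cases hb : p ∣ bB
      · exact Or.inr (h.bex p hp hb)
      · exact Or.inl (Nat.factorization_eq_zero_of_not_dvd hb)
    simp only [he0, ad]
    omega
  have key := tree_exp (N := N g) e0 (t := 5 / 12) (by norm_num)
    (fun p r => xR g y Bd aB bB (pq r0) p r) (fun p r => xR_nonneg _ _ _ _ _ _ _) R
    (fun r hr => hV (C.pp r hr).mr)
    (fun r hr r' hr' p _ hs => xR_congr (cell_of_same (C.pp r' hr').mr hs).symm)
    (fun r hr r' hr' p hp hs hx => by
      have hx' : xR g y Bd aB bB (pq r0) p r' = 0 := by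
        rw [← xR_congr (cell_of_same (C.pp r' hr').mr hs).symm]; exact hx
      obtain ⟨z1, z2⟩ := C.xR_zero hV haB hbB hr hr0 (hmax r hr) hp hx
      obtain ⟨z3, z4⟩ := C.xR_zero hV haB hbB hr' hr0 (hmax r' hr') hp hx'
      have a1 := (C.fac hV hr hp).1
      have a2 := (C.fac hV hr' hp).1
      omega)
    (fun r _ p hp hx => xR_H3 hp hx)
  have h2 : ∀ r ∈ R, pw g (st r) aB bB r (pq r) ≤ Y * ((∏ p ∈ prN (N g),
      ((p : ℝ) ^ (-(5 / 12) : ℝ)) ^ ad (e0 p) (r.factorization p)) /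
        ∏ p ∈ prN (N g), (1 + xR g y Bd aB bB (pq r0) p r)) := by
    intro r hr
    have h := C.pp r hr
    have h3 := prod_x_le (zq := N g) hy h.wr (C.pp r0 hr0).wq hBd (N g)
      (fun p => xR g y Bd aB bB (pq r0) p r)
      (fun p => xR_nonneg _ _ _ _ _ _ _) (fun p => xR_le _ _ _ _ _ _ _)
      (fun p hp hx => C.xR_supp hV hr hr0 (hmax r hr) hp hx)
    rw [h.pw_eq hV (C.hz r hr) haB hbB le_rfl e0 (fun p => r.factorization p)
      (fun p hp => hdiff r hr p hp)]
    set A := ∏ p ∈ prN (N g), ((p : ℝ) ^ (-(5 / 12) : ℝ)) ^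
      ad (e0 p) (r.factorization p) with hA
    have hA0 : 0 ≤ A := prod_nonneg fun p _ => by positivity
    have hP0 : 0 < ∏ p ∈ prN (N g), (1 + xR g y Bd aB bB (pq r0) p r) :=
      prod_pos fun p _ => by linarith [xR_nonneg (g := g) y Bd aB bB (pq r0) p r]
    rw [mul_div_assoc', le_div_iff₀ hP0, mul_comm Y]
    exact mul_le_mul_of_nonneg_left h3 hA0
  refine (sum_le_sum h2).trans ?_
  rw [← mul_sum]
  calc Y * _ ≤ Y * 1 := mul_le_mul_of_nonneg_left key hY0.le
    _ = Y := mul_one Y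

/-! ### Uniqueness of the new fraction in a column -/

/-- the deficits of the new sides of a column at nested stages -/
theorem ColD.M_dvd (hV : g.V ⊆ Icc 1 (N g)) (C : ColD g y Bd aB bB n R st pq) {r r' : ℕ}
    (hr : r ∈ R) (hr' : r' ∈ R) (hst : st r ≤ st r') : M g (st r) r ∣ M g (st r') r' := by
  have hzz : z g (st r') ≤ z g (st r) := z_anti g hst
  have h := C.pp r hr
  have h' := C.pp r' hr'
  rw [← Nat.factorization_le_iff_dvd (M_pos g _ _).ne' (M_pos g _ _).ne']
  intro p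
  have m1 : (M g (st r) r).factorization p = if p ∈ PO (z g (st r)) (N g) then
      kc g r p - r.factorization p else 0 := od_fac _ _ _ _ _
  have m2 : (M g (st r') r').factorization p = if p ∈ PO (z g (st r')) (N g) then
      kc g r' p - r'.factorization p else 0 := od_fac _ _ _ _ _
  rw [m1, m2]
  by_cases hp1 : p ∈ PO (z g (st r)) (N g)
  swap
  · rw [if_neg hp1]; exact Nat.zero_le _
  have hp2 : p ∈ PO (z g (st r')) (N g) := PO_mono hzz hp1
  rw [if_pos hp1, if_pos hp2]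
  obtain ⟨hpp, hpz, hpN⟩ := mem_PO.1 hp1
  -- one cell, hence one centre
  have hcell := C.cell_rr hV hr hr' (m := z g (st r)) le_rfl hzz
  have hk : kc g r' p = kc g r p := kc_congr hcell hpz
  -- exponents of `n`
  have a1 := (C.fac hV hr hpp).1
  have a2 := (C.fac hV hr' hpp).1
  obtain ⟨f1, f2⟩ := h.fac hV (C.hz r hr) hpp
  obtain ⟨f3, f4⟩ := h'.fac hV (C.hz r' hr') hpp
  rw [if_neg (not_le.2 hpz)] at f1 f2
  have hpz' : z g (st r') < p := lt_of_le_of_lt hzz hpz
  rw [if_neg (not_le.2 hpz')] at f3 f4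
  have c1 := (clean_cross hV (C.hz r hr) h.mr h.mq h.cl).2 p hpp hpz
  have c2 := (clean_cross hV (C.hz r' hr') h'.mr h'.mq h'.cl).2 p hpp hpz'
  rw [hk] at f3 f4 c2 ⊢
  omega

theorem psit_le_two_of {x y : ℕ} (hx : 0 < x) (hy : 0 < y) (h : ψ g x ≤ 2 * ψ g y) :
    psit g x ≤ 2 * psit g y := by
  have h2 : (0 : ℝ) < max 1 g.X := lt_of_lt_of_le one_pos (le_max_left _ _)
  have h1 : x ≤ y * 2 := by
    unfold ψ at h
    rw [← mul_div_assoc, div_le_div_iff_of_pos_right h2, max_eq_right (show 1 ≤ x from hx),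
      max_eq_right (show 1 ≤ y from hy)] at h
    have h3 : x ≤ 2 * y := by exact_mod_cast h
    omega
  have h4 : Nat.log 2 x ≤ Nat.log 2 y + 1 := by
    refine (Nat.log_mono_right h1).trans (le_of_eq ?_)
    rw [Nat.log_mul_base (by norm_num) (by omega)]
  unfold psit
  rw [← mul_div_assoc]
  refine div_le_div_of_nonneg_right ?_ h2.le
  have h5 : 2 ^ Nat.log 2 x ≤ 2 * 2 ^ Nat.log 2 y := by
    refine (Nat.pow_le_pow_right (by norm_num) h4).trans (le_of_eq ?_)
    rw [pow_add]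
    ring
  exact_mod_cast h5

theorem ColD.uniq (hV : g.V ⊆ Icc 1 (N g)) (C : ColD g y Bd aB bB n R st pq) {G : ℕ → ℚ}
    {κ : ℝ} (hκ : 17 ≤ κ) (hc0 : g.K.P.c0 ≤ 1 / 128)
    (hcand : ∀ r ∈ R, PA.IsCand g.K.P (dat g) (st r) r (G r))
    (hK : ∀ r ∈ R, CF.KK g (st r) r (G r) ≤ κ)
    (hlow : ∀ r ∈ R, κ ^ (1 / 32 : ℝ) ≤ CF.KK g (st r) r (G r))
    (hψ : ∀ r ∈ R, ∀ r' ∈ R, ψ g r ≤ 2 * ψ g r') :
    ∃ (G0 : ℚ) (B : ℕ), 0 < B ∧ (B : ℝ) ≤ κ ∧
      ∀ r ∈ R, G r = G0 ∧ ((M g (st r) r : ℚ) * G0).den ∣ B := by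
  classical
  rcases R.eq_empty_or_nonempty with hR | hR
  · refine ⟨0, 1, one_pos, by push_cast; linarith, ?_⟩
    rw [hR]
    simp
  have hκ0 : 0 < κ := by linarith
  obtain ⟨r1, hr1, hmin⟩ := exists_min_image R st hR
  -- the radius at the adoption stage is small
  have hrho : ∀ r ∈ R, PA.rho (dat g) (st r) r ≤ κ ^ (-(4 : ℝ)) := by
    intro r hr
    have h1 := (hcand r hr).2
    have h2 := hlow r hr
    have h3 : κ ^ (1 / 32 : ℝ) ≤ (PA.rho (dat g) (st r) r) ^ (-g.K.P.c0) := h2.trans h1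
    set ρ := PA.rho (dat g) (st r) r with hρ
    have hρ0 : 0 < ρ := PA.rho_pos _ _ _
    have hc : 0 < g.K.P.c0 := g.K.P.c0_pos
    by_contra hcon
    push Not at hcon
    have h4 : ρ ^ (-g.K.P.c0) < (κ ^ (-(4 : ℝ))) ^ (-g.K.P.c0) :=
      Real.rpow_lt_rpow_of_neg (Real.rpow_pos_of_pos hκ0 _) hcon (by linarith)
    rw [← Real.rpow_mul hκ0.le] at h4
    have h5 : κ ^ (-(4 : ℝ) * -g.K.P.c0) ≤ κ ^ (1 / 32 : ℝ) :=
      Real.rpow_le_rpow_of_exponent_le (by linarith) (by linarith)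
    linarith
  have hψt : ∀ r ∈ R, ∀ r' ∈ R, psit g r ≤ 2 * psit g r' := fun r hr r' hr' =>
    psit_le_two_of (mem_Icc.1 (hV (C.pp r hr).mr)).1 (mem_Icc.1 (hV (C.pp r' hr').mr)).1
      (hψ r hr r' hr')
  -- uniqueness
  have huni : ∀ r ∈ R, G r = G r1 := by
    intro r hr
    have hM := C.M_dvd hV hr1 hr (hmin r hr)
    have h1 : PA.Kc g.γ (psit g r) (M g (st r) r) (G r) ≤ 2 * κ := by
      have := hK r hr
      change PA.Kc g.γ (psit g r) (M g (st r) r) (G r) ≤ κ at this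
      linarith
    have h2 : PA.Kc g.γ (psit g r) (M g (st r) r) (G r1) ≤ 2 * κ := by
      refine (PA.Kc_mono _ _ hM _).trans ?_
      have h3 := hK r1 hr1
      change PA.Kc g.γ (psit g r1) (M g (st r1) r1) (G r1) ≤ κ at h3
      unfold PA.Kc at h3 ⊢
      have h4 := (le_max_left _ _).trans h3
      have h5 := (le_max_right _ _).trans h3
      refine max_le (by linarith) ?_
      have p1 := psit_pos g r
      have p2 := psit_pos g r1
      have p3 := hψt r1 hr1 r hr
      rw [div_le_iff₀ p2] at h5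
      rw [div_le_iff₀ p1]
      nlinarith
    refine PA.Kc_unique (psit_pos g r) (M_pos g _ _) h1 h2 ?_
    have h6 := hrho r hr
    have h7 : (M g (st r) r : ℝ) * psit g r = PA.rho (dat g) (st r) r := rfl
    rw [h7]
    have h8 : κ ^ (-(4 : ℝ)) * κ ^ (4 : ℕ) = 1 := by
      rw [← Real.rpow_natCast, ← Real.rpow_add hκ0]
      norm_num
    have h9 : 0 < κ ^ (-(4 : ℝ)) := Real.rpow_pos_of_pos hκ0 _
    have h10 : (16 : ℝ) * κ ^ 3 * κ ^ (-(4 : ℝ)) < 1 := by
      have : κ ^ (-(4 : ℝ)) * κ ^ 4 = κ * (κ ^ 3 * κ ^ (-(4 : ℝ))) := by ring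
      rw [this] at h8
      have h11 : 0 < κ ^ 3 * κ ^ (-(4 : ℝ)) := by positivity
      nlinarith
    calc 2 * (2 * κ) ^ 3 * PA.rho (dat g) (st r) r ≤ 2 * (2 * κ) ^ 3 * κ ^ (-(4 : ℝ)) := by
          refine mul_le_mul_of_nonneg_left h6 (by positivity)
      _ = 16 * κ ^ 3 * κ ^ (-(4 : ℝ)) := by ring
      _ < 1 := h10
  refine ⟨G r1, ((M g (st r1) r1 : ℚ) * G r1).den, Rat.den_pos _, ?_, fun r hr => ⟨huni r hr, ?_⟩⟩
  · exact (PA.den_le_Kc g.γ (psit g r1) (M g (st r1) r1) (G r1)).trans (hK r1 hr1)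
  · obtain ⟨k, hk⟩ := C.M_dvd hV hr1 hr (hmin r hr)
    have e : ((M g (st r) r : ℚ) * G r1) = (k : ℚ) * ((M g (st r1) r1 : ℚ) * G r1) := by
      rw [hk]; push_cast; ring
    rw [e]
    exact PA.den_mul_dvd k _

end Vale.P028.SK
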